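import Mathlib

/-!
One-dimensional sums: orthogonality of the discrete modes and lower bounds by Gaussian integrals.
-/

namespace Vale.Agent.P361

open Finset Filter Topology

lemma Icc_succ_eq (N : ℕ) : Finset.Icc (-((N + 1 : ℕ) : ℤ)) ((N + 1 : ℕ) : ℤ) =
    insert (-((N + 1 : ℕ) : ℤ)) (insert (((N + 1 : ℕ) : ℤ)) (Finset.Icc (-(N : ℤ)) (N : ℤ))) := by
  ext x
  simp only [Finset.mem_insert, Finset.mem_Icc]
  push_cast
  constructor
  · intro h; omega
  · intro h; omega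

lemma sum_Icc_succ {M : Type*} [AddCommMonoid M] (N : ℕ) (f : ℤ → M) :
    ∑ k ∈ Finset.Icc (-((N + 1 : ℕ) : ℤ)) ((N + 1 : ℕ) : ℤ), f k =
      f (-((N + 1 : ℕ) : ℤ)) + (f ((N + 1 : ℕ) : ℤ) +
        ∑ k ∈ Finset.Icc (-(N : ℤ)) (N : ℤ), f k) := by
  rw [Icc_succ_eq, Finset.sum_insert, Finset.sum_insert]
  · simp only [Finset.mem_Icc]; push_cast; omega
  · simp only [Finset.mem_insert, Finset.mem_Icc]; push_cast; omega

/-- Symmetric sums of an even function. -/
lemma sum_Icc_even (N : ℕ) (f : ℤ → ℝ) (hf : ∀ k, f (-k) = f k) :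
    ∑ k ∈ Finset.Icc (-(N : ℤ)) (N : ℤ), f k = 2 * ∑ j ∈ Finset.range (N + 1), f (j : ℤ) - f 0 := by
  induction N with
  | zero => simp; ring
  | succ N ih =>
    rw [sum_Icc_succ, ih, hf, Finset.sum_range_succ (n := N + 1)]
    push_cast
    ring

/-- The sum over `{-N, ..., N}` as a sum over `range (2N+1)`. -/
lemma sum_Icc_shift {M : Type*} [AddCommMonoid M] (N : ℕ) (f : ℤ → M) :
    ∑ k ∈ Finset.Icc (-(N : ℤ)) (N : ℤ), f k =
      ∑ m ∈ Finset.range (2 * N + 1), f ((m : ℤ) - N) := by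
  symm
  apply Finset.sum_bij (fun (m : ℕ) _ => (m : ℤ) - N)
  · intro m hm
    rw [Finset.mem_range] at hm
    rw [Finset.mem_Icc]
    omega
  · intro a _ b _ h
    have h' : (a : ℤ) - N = (b : ℤ) - N := h
    omega
  · intro k hk
    rw [Finset.mem_Icc] at hk
    refine ⟨(k + N).toNat, ?_, ?_⟩
    · rw [Finset.mem_range]; omega
    · show (((k + N).toNat : ℕ) : ℤ) - N = k
      omega
  · intro m _; rfl

/-- Discrete orthogonality in one dimension. -/
lemma orth_one (N : ℕ) (d : ℤ) (hd : |d| ≤ 2 * N) :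
    ∑ k ∈ Finset.Icc (-(N : ℤ)) (N : ℤ),
      Complex.exp (2 * Real.pi * Complex.I * ((k : ℂ) * d / ((2 * N + 1 : ℕ) : ℂ))) =
      if d = 0 then ((2 * N + 1 : ℕ) : ℂ) else 0 := by
  by_cases h0 : d = 0
  · subst h0
    rw [if_pos rfl]
    simp
    have : ((N : ℤ) + 1 + N).toNat = 2 * N + 1 := by omega
    rw [this]; push_cast; ring
  · rw [if_neg h0, sum_Icc_shift]
    have hLne : ((2 * N + 1 : ℕ) : ℂ) ≠ 0 := by exact_mod_cast (by omega : 2 * N + 1 ≠ 0)
    set z := Complex.exp (2 * Real.pi * Complex.I * ((d : ℂ) / ((2 * N + 1 : ℕ) : ℂ))) with hz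
    have hterm : ∀ m : ℕ, Complex.exp (2 * Real.pi * Complex.I *
        ((((m : ℤ) - N : ℤ) : ℂ) * d / ((2 * N + 1 : ℕ) : ℂ))) =
        Complex.exp (-(2 * Real.pi * Complex.I * ((N : ℂ) * d / ((2 * N + 1 : ℕ) : ℂ)))) *
          z ^ m := by
      intro m
      rw [hz, ← Complex.exp_nat_mul, ← Complex.exp_add]
      congr 1
      push_cast
      ring
    simp only [hterm]
    rw [← Finset.mul_sum]
    have hz1 : z ≠ 1 := by
      intro h
      rw [hz, Complex.exp_eq_one_iff] at h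
      obtain ⟨k, hk⟩ := h
      have hpi : (2 * Real.pi * Complex.I : ℂ) ≠ 0 := by
        simp [Real.pi_ne_zero, Complex.I_ne_zero]
      have hk' : (2 * Real.pi * Complex.I : ℂ) * ((d : ℂ) / ((2 * N + 1 : ℕ) : ℂ)) =
          (2 * Real.pi * Complex.I : ℂ) * k := by rw [hk]; ring
      have h2 := mul_left_cancel₀ hpi hk'
      rw [div_eq_iff hLne] at h2
      have h3 : d = k * ((2 * N + 1 : ℕ) : ℤ) := by exact_mod_cast h2
      rcases eq_or_ne k 0 with hk0 | hk0
      · rw [hk0, zero_mul] at h3; exact h0 h3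
      · have h4 : 1 ≤ |k| := Int.one_le_abs hk0
        have h5 : |d| = |k| * ((2 * N + 1 : ℕ) : ℤ) := by
          rw [h3, abs_mul]; congr 1
        have h6 : ((2 * N + 1 : ℕ) : ℤ) ≤ |d| := by
          rw [h5]; nlinarith
        push_cast at h6
        omega
    have hzL : z ^ (2 * N + 1) = 1 := by
      rw [hz, ← Complex.exp_nat_mul, Complex.exp_eq_one_iff]
      refine ⟨d, ?_⟩
      field_simp
    rw [geom_sum_eq hz1, hzL, sub_self, zero_div, mul_zero]

/-- Truncated Gaussian integral. -/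
noncomputable def Jt (t : ℝ) : ℝ :=
  (1 / Real.pi) * ∫ θ in (0 : ℝ)..Real.pi, Real.exp (-(t * θ ^ 2 / 2))

lemma Jt_nonneg (t : ℝ) : 0 ≤ Jt t := by
  unfold Jt
  apply mul_nonneg (by positivity)
  apply intervalIntegral.integral_nonneg Real.pi_pos.le
  intro u _
  exact (Real.exp_pos _).le

lemma Jt_pos (t : ℝ) : 0 < Jt t := by
  unfold Jt
  apply mul_pos (by positivity)
  apply intervalIntegral.intervalIntegral_pos_of_pos
  · apply Continuous.intervalIntegrable
    fun_prop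
  · intro u
    exact Real.exp_pos _
  · exact Real.pi_pos

/-- Lower bound of the discrete mode sum by the Gaussian integral. -/
lemma oneD_lower (t : ℝ) (ht : 0 ≤ t) (N : ℕ) :
    Jt t - 1 / ((2 * N + 1 : ℕ) : ℝ) ≤ (1 / ((2 * N + 1 : ℕ) : ℝ)) *
      ∑ j ∈ Finset.Icc (-(N : ℤ)) (N : ℤ),
        Real.exp (-(t * (1 - Real.cos (2 * Real.pi * j / ((2 * N + 1 : ℕ) : ℝ))))) := by
  set L : ℝ := ((2 * N + 1 : ℕ) : ℝ) with hL
  have hLpos : 0 < L := by rw [hL]; positivity
  set f : ℝ → ℝ := fun u => Real.exp (-(t * (2 * Real.pi * u / L) ^ 2 / 2)) with hf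
  have h1 : ∑ j ∈ Finset.Icc (-(N : ℤ)) (N : ℤ), f (j : ℝ) ≤
      ∑ j ∈ Finset.Icc (-(N : ℤ)) (N : ℤ),
        Real.exp (-(t * (1 - Real.cos (2 * Real.pi * j / L)))) := by
    apply Finset.sum_le_sum
    intro j _
    rw [hf]
    apply Real.exp_le_exp.mpr
    have := Real.one_sub_sq_div_two_le_cos (x := 2 * Real.pi * (j : ℝ) / L)
    have h2 : 1 - Real.cos (2 * Real.pi * j / L) ≤ (2 * Real.pi * j / L) ^ 2 / 2 := by linarith
    have h3 := mul_le_mul_of_nonneg_left h2 ht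
    linarith
  have h2 : ∑ j ∈ Finset.Icc (-(N : ℤ)) (N : ℤ), f (j : ℝ) =
      2 * ∑ j ∈ Finset.range (N + 1), f (j : ℝ) - f 0 := by
    have := sum_Icc_even N (fun k : ℤ => f (k : ℝ)) (by
      intro k
      rw [hf]
      simp only
      congr 1
      push_cast
      ring)
    simpa using this
  have hanti : AntitoneOn f (Set.Icc (0 : ℝ) (0 + ((N + 1 : ℕ) : ℝ))) := by
    intro a ha b hb hab
    rw [hf]
    apply Real.exp_le_exp.mpr
    have ha0 : 0 ≤ a := ha.1
    have h5 : (2 * Real.pi * a / L) ^ 2 ≤ (2 * Real.pi * b / L) ^ 2 := by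
      have hpi := Real.pi_pos
      gcongr
    have := mul_le_mul_of_nonneg_left h5 ht
    linarith
  have h3 : ∫ x in (0 : ℝ)..0 + ((N + 1 : ℕ) : ℝ), f x ≤ ∑ i ∈ Finset.range (N + 1), f (0 + i) :=
    AntitoneOn.integral_le_sum hanti
  simp only [zero_add] at h3
  have hcont : Continuous f := by rw [hf]; fun_prop
  have h4 : ∫ x in (0 : ℝ)..(L / 2), f x ≤ ∫ x in (0 : ℝ)..((N + 1 : ℕ) : ℝ), f x := by
    rw [← intervalIntegral.integral_add_adjacent_intervals
      (hcont.intervalIntegrable 0 (L / 2)) (hcont.intervalIntegrable (L / 2) ((N + 1 : ℕ) : ℝ))]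
    have : 0 ≤ ∫ x in (L / 2)..((N + 1 : ℕ) : ℝ), f x := by
      apply intervalIntegral.integral_nonneg
      · rw [hL]; push_cast; linarith
      · intro u _; rw [hf]; exact (Real.exp_pos _).le
    linarith
  have h5 : ∫ x in (0 : ℝ)..(L / 2), f x = L / (2 * Real.pi) *
      ∫ θ in (0 : ℝ)..Real.pi, Real.exp (-(t * θ ^ 2 / 2)) := by
    have hc : (2 * Real.pi / L) ≠ 0 := by
      have := Real.pi_pos; positivity
    have h6 := intervalIntegral.integral_comp_mul_right (a := 0) (b := L / 2)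
      (fun θ => Real.exp (-(t * θ ^ 2 / 2))) hc
    have e1 : ∀ x, (fun θ => Real.exp (-(t * θ ^ 2 / 2))) (x * (2 * Real.pi / L)) = f x := by
      intro x; rw [hf]; simp only; congr 1; ring
    simp only [e1] at h6
    rw [h6, zero_mul]
    have e2 : L / 2 * (2 * Real.pi / L) = Real.pi := by field_simp
    rw [e2, smul_eq_mul]
    congr 1
    have := Real.pi_pos
    field_simp
  have hf0 : f 0 = 1 := by rw [hf]; simp
  have h7 : L / (2 * Real.pi) * ∫ θ in (0 : ℝ)..Real.pi, Real.exp (-(t * θ ^ 2 / 2)) =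
      (L / 2) * Jt t := by
    unfold Jt
    have := Real.pi_pos
    field_simp
  have h8 : L * Jt t - 1 ≤ ∑ j ∈ Finset.Icc (-(N : ℤ)) (N : ℤ),
        Real.exp (-(t * (1 - Real.cos (2 * Real.pi * j / L)))) := by
    linarith
  have h9 : Jt t - 1 / L = (1 / L) * (L * Jt t - 1) := by field_simp
  rw [h9]
  apply mul_le_mul_of_nonneg_left h8 (by positivity)

/-- `√t J(t) → 1 / √(2π)`. -/
lemma Jt_asymp : Tendsto (fun t : ℝ => Real.sqrt t * Jt t) atTop
    (𝓝 (1 / Real.sqrt (2 * Real.pi))) := by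
  have hint : MeasureTheory.IntegrableOn (fun u : ℝ => Real.exp (-(1 / 2) * u ^ 2))
      (Set.Ioi 0) := by
    have := integrable_exp_neg_mul_sq (b := 1 / 2) (by norm_num)
    exact this.integrableOn
  have h1 : Tendsto (fun t : ℝ => ∫ u in (0 : ℝ)..(Real.sqrt t * Real.pi),
      Real.exp (-(1 / 2) * u ^ 2)) atTop
      (𝓝 (∫ u in Set.Ioi (0 : ℝ), Real.exp (-(1 / 2) * u ^ 2))) := by
    apply MeasureTheory.intervalIntegral_tendsto_integral_Ioi 0 hint
    apply Tendsto.atTop_mul_const Real.pi_pos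
    exact Real.tendsto_sqrt_atTop
  rw [integral_gaussian_Ioi] at h1
  have h2 : ∀ᶠ t : ℝ in atTop, (1 / Real.pi) * ∫ u in (0 : ℝ)..(Real.sqrt t * Real.pi),
      Real.exp (-(1 / 2) * u ^ 2) = Real.sqrt t * Jt t := by
    filter_upwards [eventually_gt_atTop (0 : ℝ)] with t ht
    have hs : Real.sqrt t ≠ 0 := (Real.sqrt_pos.mpr ht).ne'
    have h6 := intervalIntegral.integral_comp_mul_left (a := 0) (b := Real.pi)
      (fun u => Real.exp (-(1 / 2) * u ^ 2)) hs
    have e1 : ∀ x, (fun u => Real.exp (-(1 / 2) * u ^ 2)) (Real.sqrt t * x) =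
        Real.exp (-(t * x ^ 2 / 2)) := by
      intro x
      simp only
      congr 1
      rw [mul_pow, Real.sq_sqrt ht.le]
      ring
    simp only [e1] at h6
    unfold Jt
    rw [h6, mul_zero, smul_eq_mul]
    field_simp
  have h3 := (h1.const_mul (1 / Real.pi)).congr' h2
  convert! h3 using 2
  have hpi := Real.pi_pos
  have e3 : Real.pi / (1 / 2) = 2 * Real.pi := by ring
  rw [e3]
  have e4 : Real.sqrt (2 * Real.pi) * Real.sqrt (2 * Real.pi) = 2 * Real.pi :=
    Real.mul_self_sqrt (by positivity)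
  have e5 : Real.sqrt (2 * Real.pi) ≠ 0 := (Real.sqrt_pos.mpr (by positivity)).ne'
  rw [div_eq_iff e5]
  calc (1 : ℝ) = 1 / Real.pi * ((2 * Real.pi) / 2) := by field_simp
    _ = 1 / Real.pi * ((Real.sqrt (2 * Real.pi) * Real.sqrt (2 * Real.pi)) / 2) := by rw [e4]
    _ = _ := by ring

end Vale.Agent.P361
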