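import Vale.Agent.P361.Region
import Vale.Agent.P361.OneD

/-!
The finite-volume bound on the boxes `{-N, ..., N}^3`, and the field dependence of `log Z`.
-/

set_option linter.unusedSectionVars false

namespace Vale.Agent.P361

open Matrix Finset Filter Topology

section grad
variable {Λ : Type*} [Fintype Λ] [DecidableEq Λ]

/-- Total magnetization expectation. -/
noncomputable def totMag (n : ℕ) (J : Λ → Λ → ℝ) (β h : ℝ) : ℝ :=
  ev n J h β (magR n) / ev n J h β 1

/-- Supporting-line inequality in the field. -/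
lemma logZ_grad (n : ℕ) (J : Λ → Λ → ℝ) (hJ0 : ∀ x, J x x = 0) (β h h' : ℝ) :
    logZ n J β h + β * (h' - h) * totMag n J β h ≤ logZ n J β h' := by
  have hT := fieldR_transpose n J hJ0 h
  have hpb := peierls_bogoliubov (-β • fieldR n J h) ((β * (h' - h)) • magR n)
    (by rw [Matrix.transpose_smul, hT]) (by rw [Matrix.transpose_smul, magR_transpose])
  have hsum : -β • fieldR n J h + (β * (h' - h)) • magR n = -β • fieldR n J h' := by
    unfold fieldR
    module
  rw [hsum, mul_smul_comm, Matrix.trace_smul, smul_eq_mul, mul_div_assoc] at hpb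
  unfold logZ totMag ev
  rw [mul_one]
  exact hpb

lemma logZ_convex (n : ℕ) (J : Λ → Λ → ℝ) (hJ0 : ∀ x, J x x = 0) (β : ℝ) :
    ConvexOn ℝ Set.univ (fun h => logZ n J β h) := by
  refine ⟨convex_univ, ?_⟩
  intro x _ y _ a b ha hb hab
  have h1 := logZ_grad n J hJ0 β (a • x + b • y) x
  have h2 := logZ_grad n J hJ0 β (a • x + b • y) y
  simp only [smul_eq_mul] at *
  set z := a * x + b * y with hz
  set g := totMag n J β z
  have h3 := mul_le_mul_of_nonneg_left h1 ha
  have h4 := mul_le_mul_of_nonneg_left h2 hb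
  have h5 : a * (logZ n J β z + β * (x - z) * g) + b * (logZ n J β z + β * (y - z) * g) =
      logZ n J β z := by
    have : a * (logZ n J β z + β * (x - z) * g) + b * (logZ n J β z + β * (y - z) * g) =
        (a + b) * logZ n J β z + β * g * (a * x + b * y - (a + b) * z) := by ring
    rw [this, hab, ← hz]; ring
  linarith

end grad

/-- Angle of the mode `k` in direction `i`. -/
noncomputable def ang (N : ℕ) (k : ℤ) : ℝ := 2 * Real.pi * k / ((2 * N + 1 : ℕ) : ℝ)

/-- Phase of the plane wave `k` at the site `x`. -/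
noncomputable def phase (N : ℕ) (k x : Fin 3 → ℤ) : ℝ := ∑ i, ang N (k i) * x i

lemma cos_add_form (a b : ℝ) : Real.cos a * Real.cos b + Real.sin a * Real.sin b =
    Real.cos (a - b) := (Real.cos_sub a b).symm

lemma phase_sub (N : ℕ) (k x y : Fin 3 → ℤ) :
    phase N k x - phase N k y = ∑ i, ang N (k i) * ((x i - y i : ℤ) : ℝ) := by
  unfold phase
  rw [← Finset.sum_sub_distrib]
  apply Finset.sum_congr rfl
  intro i _
  push_cast; ring

lemma box_orth (N : ℕ) (x y : Fin 3 → ℤ) (hx : x ∈ box N) (hy : y ∈ box N) :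
    ∑ k ∈ box N, (Real.cos (phase N k x) * Real.cos (phase N k y) +
      Real.sin (phase N k x) * Real.sin (phase N k y)) =
      if x = y then ((box N).card : ℝ) else 0 := by
  have h1 : ∀ k : Fin 3 → ℤ, Real.cos (phase N k x) * Real.cos (phase N k y) +
      Real.sin (phase N k x) * Real.sin (phase N k y) =
      (∏ i, Complex.exp (2 * Real.pi * Complex.I *
        ((k i : ℂ) * ((x i - y i : ℤ) : ℂ) / ((2 * N + 1 : ℕ) : ℂ)))).re := by
    intro k
    rw [cos_add_form, phase_sub, ← Complex.exp_sum]
    have : ∑ i, 2 * Real.pi * Complex.I *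
        ((k i : ℂ) * ((x i - y i : ℤ) : ℂ) / ((2 * N + 1 : ℕ) : ℂ)) =
        ((∑ i, ang N (k i) * ((x i - y i : ℤ) : ℝ) : ℝ) : ℂ) * Complex.I := by
      push_cast
      rw [Finset.sum_mul]
      apply Finset.sum_congr rfl
      intro i _
      unfold ang
      push_cast
      ring
    rw [this, Complex.exp_ofReal_mul_I_re]
  simp only [h1]
  rw [← Complex.re_sum]
  have h2 : ∑ k ∈ box N, ∏ i, Complex.exp (2 * Real.pi * Complex.I *
        ((k i : ℂ) * ((x i - y i : ℤ) : ℂ) / ((2 * N + 1 : ℕ) : ℂ))) =
      ∏ i, ∑ k ∈ Finset.Icc (-(N : ℤ)) (N : ℤ), Complex.exp (2 * Real.pi * Complex.I *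
        ((k : ℂ) * ((x i - y i : ℤ) : ℂ) / ((2 * N + 1 : ℕ) : ℂ))) := by
    unfold box
    rw [Finset.prod_univ_sum]
  rw [h2]
  have hd : ∀ i, |x i - y i| ≤ 2 * N := by
    intro i
    have a1 := (mem_box.mp hx) i
    have a2 := (mem_box.mp hy) i
    rw [abs_le]; omega
  have h3 : ∀ i, ∑ k ∈ Finset.Icc (-(N : ℤ)) (N : ℤ), Complex.exp (2 * Real.pi * Complex.I *
        ((k : ℂ) * ((x i - y i : ℤ) : ℂ) / ((2 * N + 1 : ℕ) : ℂ))) =
      if x i - y i = 0 then ((2 * N + 1 : ℕ) : ℂ) else 0 := fun i => orth_one N _ (hd i)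
  simp only [h3]
  by_cases hxy : x = y
  · subst hxy
    rw [if_pos rfl, card_box]
    simp
    norm_cast
  · rw [if_neg hxy]
    have : ∃ i, x i - y i ≠ 0 := by
      by_contra hcon
      push Not at hcon
      apply hxy
      funext i
      have := hcon i
      omega
    obtain ⟨i, hi⟩ := this
    rw [Finset.prod_eq_zero (Finset.mem_univ i)]
    · simp
    · rw [if_neg hi]

lemma nn_step {x y : Fin 3 → ℤ} (h : nn x y) :
    ∃ i : Fin 3, y = Function.update x i (x i + 1) ∨ y = Function.update x i (x i - 1) := by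
  unfold nn at h
  have : ∃ i, x i ≠ y i := by
    by_contra hcon
    push Not at hcon
    have : ∑ i, |x i - y i| = 0 := by
      apply Finset.sum_eq_zero
      intro i _
      rw [hcon i]; simp
    omega
  obtain ⟨i, hi⟩ := this
  refine ⟨i, ?_⟩
  have h1 : ∑ j, |x j - y j| = |x i - y i| + ∑ j ∈ Finset.univ.erase i, |x j - y j| :=
    (Finset.add_sum_erase _ _ (Finset.mem_univ i)).symm
  rw [h1] at h
  have h2 : 0 ≤ ∑ j ∈ Finset.univ.erase i, |x j - y j| :=
    Finset.sum_nonneg fun j _ => abs_nonneg _
  have h3 : 1 ≤ |x i - y i| := Int.one_le_abs (by omega)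
  have h4 : |x i - y i| = 1 := by omega
  have h5 : ∑ j ∈ Finset.univ.erase i, |x j - y j| = 0 := by omega
  have h7 : ∀ j, j ≠ i → y j = x j := by
    intro j hj
    have h6 := (Finset.sum_eq_zero_iff_of_nonneg (fun j _ => abs_nonneg (x j - y j))).mp h5 j
      (Finset.mem_erase.mpr ⟨hj, Finset.mem_univ _⟩)
    have := abs_eq_zero.mp h6
    omega
  rcases (abs_eq (by norm_num : (0 : ℤ) ≤ 1)).mp h4 with h8 | h8
  · right
    funext j
    by_cases hj : j = i
    · subst hj; rw [Function.update_self]; omega
    · rw [Function.update_of_ne hj]; exact h7 j hj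
  · left
    funext j
    by_cases hj : j = i
    · subst hj; rw [Function.update_self]; omega
    · rw [Function.update_of_ne hj]; exact h7 j hj

/-- Contribution of one site to the mode energy. -/
lemma site_energy (N : ℕ) (k x : Fin 3 → ℤ) :
    ∑ y ∈ box N, (if nn x y then (1 : ℝ) else 0) *
      ((Real.cos (phase N k x) - Real.cos (phase N k y)) ^ 2 +
        (Real.sin (phase N k x) - Real.sin (phase N k y)) ^ 2) ≤
      4 * ∑ i, (1 - Real.cos (ang N (k i))) := by
  have h1 : ∀ y, (Real.cos (phase N k x) - Real.cos (phase N k y)) ^ 2 +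
        (Real.sin (phase N k x) - Real.sin (phase N k y)) ^ 2 =
        2 - 2 * Real.cos (phase N k x - phase N k y) := by
    intro y
    have a1 := Real.sin_sq_add_cos_sq (phase N k x)
    have a2 := Real.sin_sq_add_cos_sq (phase N k y)
    rw [Real.cos_sub]
    nlinarith
  have hnn0 : ∀ y, 0 ≤ (Real.cos (phase N k x) - Real.cos (phase N k y)) ^ 2 +
        (Real.sin (phase N k x) - Real.sin (phase N k y)) ^ 2 := fun y => by positivity
  have hup : ∀ i : Fin 3, phase N k x - phase N k (Function.update x i (x i + 1)) =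
      -ang N (k i) := by
    intro i
    rw [phase_sub, Finset.sum_eq_single i]
    · rw [Function.update_self]; push_cast; ring
    · intro j _ hj
      rw [Function.update_of_ne hj]; simp
    · intro h; exact absurd (Finset.mem_univ _) h
  have hdn : ∀ i : Fin 3, phase N k x - phase N k (Function.update x i (x i - 1)) =
      ang N (k i) := by
    intro i
    rw [phase_sub, Finset.sum_eq_single i]
    · rw [Function.update_self]; push_cast; ring
    · intro j _ hj
      rw [Function.update_of_ne hj]; simp
    · intro h; exact absurd (Finset.mem_univ _) h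
  set G : (Fin 3 → ℤ) → ℝ := fun y => (Real.cos (phase N k x) - Real.cos (phase N k y)) ^ 2 +
        (Real.sin (phase N k x) - Real.sin (phase N k y)) ^ 2 with hG
  have h2 : ∀ y, (if nn x y then (1 : ℝ) else 0) * G y ≤
      ∑ i, ((if y = Function.update x i (x i + 1) then G y else 0) +
        (if y = Function.update x i (x i - 1) then G y else 0)) := by
    intro y
    have hpos : ∀ i : Fin 3, 0 ≤ (if y = Function.update x i (x i + 1) then G y else 0) +
        (if y = Function.update x i (x i - 1) then G y else 0) := by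
      intro i
      have := hnn0 y
      apply add_nonneg
      · split_ifs
        · exact this
        · exact le_rfl
      · split_ifs
        · exact this
        · exact le_rfl
    by_cases h : nn x y
    · rw [if_pos h, one_mul]
      obtain ⟨i, hi⟩ := nn_step h
      refine le_trans ?_ (Finset.single_le_sum (fun i _ => hpos i) (Finset.mem_univ i))
      have := hnn0 y
      rcases hi with hi | hi
      · rw [if_pos hi]
        have : 0 ≤ (if y = Function.update x i (x i - 1) then G y else 0) := by
          split_ifs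
          · exact this
          · exact le_rfl
        linarith
      · have h9 : 0 ≤ (if y = Function.update x i (x i + 1) then G y else 0) := by
          split_ifs
          · exact this
          · exact le_rfl
        rw [if_pos hi]
        linarith
    · rw [if_neg h, zero_mul]
      exact Finset.sum_nonneg fun i _ => hpos i
  refine le_trans (Finset.sum_le_sum fun y _ => h2 y) ?_
  rw [Finset.sum_comm, Finset.mul_sum]
  apply Finset.sum_le_sum
  intro i _
  rw [Finset.sum_add_distrib, Finset.sum_ite_eq', Finset.sum_ite_eq']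
  have g1 : G (Function.update x i (x i + 1)) = 2 - 2 * Real.cos (ang N (k i)) := by
    rw [hG]; simp only; rw [h1, hup, Real.cos_neg]
  have g2 : G (Function.update x i (x i - 1)) = 2 - 2 * Real.cos (ang N (k i)) := by
    rw [hG]; simp only; rw [h1, hdn]
  rw [g1, g2]
  have := Real.cos_le_one (ang N (k i))
  split_ifs <;> linarith

/-- Magnetization density in the box. -/
noncomputable def mdens (n : ℕ) (β h : ℝ) (N : ℕ) : ℝ :=
  totMag n (Jc (box N)) β h / ((box N).card : ℝ)

lemma box_card_pos (N : ℕ) : (0 : ℝ) < ((box N).card : ℝ) := by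
  rw [card_box]; positivity

lemma box_c2 (N : ℕ) (x y : box N) :
    ∑ k : box N, (Real.cos (phase N k x) * Real.cos (phase N k y) +
      Real.sin (phase N k x) * Real.sin (phase N k y)) =
      if x = y then (Fintype.card (box N) : ℝ) else 0 := by
  have h1 := box_orth N x y x.2 y.2
  rw [← Finset.sum_coe_sort (box N)] at h1
  rw [Fintype.card_coe, h1]
  by_cases hxy : x = y
  · subst hxy; rw [if_pos rfl, if_pos rfl]
  · rw [if_neg hxy, if_neg (fun h => hxy (Subtype.ext h))]

/-- Mode energy. -/
noncomputable def modeE (n N : ℕ) (k : Fin 3 → ℤ) : ℝ :=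
  (n : ℝ) ^ 2 * ∑ i, (1 - Real.cos (ang N (k i)))

lemma modeE_nonneg (n N : ℕ) (k : Fin 3 → ℤ) : 0 ≤ modeE n N k := by
  unfold modeE
  apply mul_nonneg (by positivity)
  apply Finset.sum_nonneg
  intro i _
  have := Real.cos_le_one (ang N (k i))
  linarith

lemma box_c4a (N : ℕ) (k : Fin 3 → ℤ) (x : box N) :
    ∑ y : box N, Jc (box N) x y *
      ((Real.cos (phase N k x) - Real.cos (phase N k y)) ^ 2 +
        (Real.sin (phase N k x) - Real.sin (phase N k y)) ^ 2) ≤
      4 * ∑ i, (1 - Real.cos (ang N (k i))) := by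
  have h := site_energy N k x.1
  rw [← Finset.sum_coe_sort (box N)] at h
  exact h

lemma box_c4 (n N : ℕ) (k : Fin 3 → ℤ) : (1 / 2 * ∑ x : box N, ∑ y : box N, Jc (box N) x y *
      ((Real.cos (phase N k x) - Real.cos (phase N k y)) ^ 2 +
        (Real.sin (phase N k x) - Real.sin (phase N k y)) ^ 2)) * ((n : ℝ) ^ 2 / 2) ≤
      Fintype.card (box N) * modeE n N k := by
  have s2 := Finset.sum_le_sum fun (x : box N) (_ : x ∈ Finset.univ) => box_c4a N k x
  rw [Finset.sum_const, Finset.card_univ, nsmul_eq_mul] at s2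
  have hpos : (0 : ℝ) ≤ (1 / 2) * ((n : ℝ) ^ 2 / 2) := by positivity
  have s3 := mul_le_mul_of_nonneg_right s2 hpos
  unfold modeE
  calc _ = _ := by ring
    _ ≤ _ := s3
    _ = _ := by ring

lemma box_c5 (n : ℕ) (β h : ℝ) (N : ℕ) : ev n (Jc (box N)) h β (magR n) =
      Fintype.card (box N) * mdens n β h N * ev n (Jc (box N)) h β 1 := by
  have hZ := ev_one_pos n (Jc (box N)) (Jc_diag _) h β
  have hc := box_card_pos N
  rw [Fintype.card_coe]
  unfold mdens totMag
  generalize ev n (Jc (box N)) h β (magR n) = a at *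
  generalize ev n (Jc (box N)) h β 1 = b at *
  generalize ((box N).card : ℝ) = c at *
  field_simp

lemma box_nonempty (N : ℕ) : Nonempty (box N) :=
  ⟨⟨fun _ => 0, by rw [mem_box]; intro i; constructor <;> omega⟩⟩

/-- Finite-volume bound on the box. -/
theorem box_bound (n : ℕ) (β h : ℝ) (hβ : 0 ≤ β) (hh : 0 ≤ h) (N K : ℕ)
    (hm : 0 < mdens n β h N) :
    2 * mdens n β h N / ((box N).card : ℝ) * ∑ k ∈ box N, ∑ ν ∈ Finset.range K,
      Real.exp (-((ν : ℝ) + 1) * (β * (modeE n N k / (2 * mdens n β h N) + h))) ≤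
      n * ((n : ℝ) / 2 - mdens n β h N) := by
  have hne := box_nonempty N
  have key := finite_volume n (Jc (box N)) (Jc_diag _) (Jc_nonneg _) h β hh hβ
    (κ := box N) (fun k x => Real.cos (phase N k x)) (fun k x => Real.sin (phase N k x))
    (fun k x => Real.cos_sq_add_sin_sq (phase N k x)) (box_c2 N)
    (fun k => modeE n N k) (fun k => modeE_nonneg n N k)
    (fun k => box_c4 n N k) (mdens n β h N) hm (box_c5 n β h N) K
  have hs := Finset.sum_coe_sort (box N) (fun k : Fin 3 → ℤ => ∑ ν ∈ Finset.range K,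
      Real.exp (-((ν : ℝ) + 1) * (β * (modeE n N k / (2 * mdens n β h N) + h))))
  rw [← hs]
  rw [Fintype.card_coe] at key
  exact key

end Vale.Agent.P361
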