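import Vale.Agent.P361.Final

/-!
The spin matrices satisfy the spin relations; the inequality at every temperature.
-/

set_option linter.unusedSectionVars false

namespace Vale.Agent.P361

open Matrix Finset Filter Topology

lemma spin3_map (n : ℕ) : spin3 n = (rZ n).map Complex.ofReal := by
  unfold spin3 rZ
  rw [Matrix.diagonal_map (by simp)]
  congr 1
  funext k
  simp

lemma spinUp_map (n : ℕ) : spinUp n = (rP n).map Complex.ofReal := by
  ext i j
  unfold spinUp rP
  simp only [Matrix.of_apply, Matrix.map_apply]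
  split_ifs <;> simp

lemma spinUp_conj_map (n : ℕ) : (spinUp n)ᴴ = (rM n).map Complex.ofReal := by
  rw [spinUp_map]
  ext i j
  simp [rM, Matrix.conjTranspose_apply]

lemma map_comm (n : ℕ) (A B C : Matrix (Fin (n + 1)) (Fin (n + 1)) ℝ) (h : A * B - B * A = C) :
    A.map Complex.ofReal * B.map Complex.ofReal - B.map Complex.ofReal * A.map Complex.ofReal =
      C.map Complex.ofReal := by
  have h2 := congrArg (fun M : Matrix _ _ ℝ => M.map (Complex.ofRealHom : ℝ → ℂ)) h
  rw [Matrix.map_sub Complex.ofRealHom (fun a b => by simp), Matrix.map_mul, Matrix.map_mul] at h2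
  exact h2

lemma cP_M (n : ℕ) : spinUp n * (spinUp n)ᴴ - (spinUp n)ᴴ * spinUp n = (2 : ℂ) • spin3 n := by
  rw [spinUp_conj_map, spinUp_map, spin3_map, map_comm n _ _ _ (comm_PM n)]
  ext i j
  simp [Matrix.map_apply]

lemma cZ_M (n : ℕ) : spin3 n * (spinUp n)ᴴ - (spinUp n)ᴴ * spin3 n = -(spinUp n)ᴴ := by
  rw [spinUp_conj_map, spin3_map, map_comm n _ _ _ (comm_ZM n)]
  ext i j
  simp [Matrix.map_apply]

lemma cP_Z (n : ℕ) : spinUp n * spin3 n - spin3 n * spinUp n = -spinUp n := by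
  rw [spinUp_map, spin3_map, map_comm n _ _ _ (comm_PZ n)]
  ext i j
  simp [Matrix.map_apply]

lemma inv_two_I : (1 / (2 * Complex.I) : ℂ) = -(Complex.I / 2) := by
  rw [div_eq_iff (by simp)]
  ring_nf
  simp

theorem spin_comm12 (n : ℕ) : spin1 n * spin2 n - spin2 n * spin1 n = Complex.I • spin3 n := by
  unfold spin1 spin2
  rw [inv_two_I]
  have h := cP_M n
  have e : spin3 n = (1 / 2 : ℂ) • (spinUp n * (spinUp n)ᴴ - (spinUp n)ᴴ * spinUp n) := by
    rw [h, smul_smul]; norm_num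
  rw [e]
  simp only [smul_mul_smul_comm, mul_add, add_mul, mul_sub, sub_mul, smul_sub, smul_add,
    smul_smul]
  module

theorem spin_comm23 (n : ℕ) : spin2 n * spin3 n - spin3 n * spin2 n = Complex.I • spin1 n := by
  unfold spin1 spin2
  rw [inv_two_I]
  have h1 := cP_Z n
  have h2 := cZ_M n
  have e1 : spinUp n * spin3 n = spin3 n * spinUp n - spinUp n := by
    rw [← sub_eq_zero] at h1 ⊢
    rw [← h1]; abel
  have e2 : (spinUp n)ᴴ * spin3 n = spin3 n * (spinUp n)ᴴ + (spinUp n)ᴴ := by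
    rw [← sub_eq_zero] at h2 ⊢
    rw [← neg_zero, ← h2]; abel
  simp only [smul_mul_assoc, mul_smul_comm, sub_mul, mul_sub, e1, e2, smul_sub, smul_add,
    smul_smul]
  module

theorem spin_comm31 (n : ℕ) : spin3 n * spin1 n - spin1 n * spin3 n = Complex.I • spin2 n := by
  unfold spin1 spin2
  rw [inv_two_I]
  have h1 := cP_Z n
  have h2 := cZ_M n
  have e1 : spinUp n * spin3 n = spin3 n * spinUp n - spinUp n := by
    rw [← sub_eq_zero] at h1 ⊢
    rw [← h1]; abel
  have e2 : (spinUp n)ᴴ * spin3 n = spin3 n * (spinUp n)ᴴ + (spinUp n)ᴴ := by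
    rw [← sub_eq_zero] at h2 ⊢
    rw [← neg_zero, ← h2]; abel
  have hI : Complex.I * -(Complex.I / 2) = 1 / 2 := by
    ring_nf; simp; norm_num
  simp only [smul_mul_assoc, mul_smul_comm, add_mul, mul_add, e1, e2, smul_sub, smul_add,
    smul_smul, hI]
  module

lemma map_diag (n : ℕ) (v : Fin (n + 1) → ℝ) :
    (Matrix.diagonal v).map Complex.ofReal = Matrix.diagonal fun k => ((v k : ℝ) : ℂ) := by
  rw [Matrix.diagonal_map (by simp)]

lemma cPM (n : ℕ) : spinUp n * (spinUp n)ᴴ =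
    Matrix.diagonal fun k : Fin (n + 1) =>
      (((((k : ℕ) : ℝ) + 1) * ((n : ℝ) - ((k : ℕ) : ℝ)) : ℝ) : ℂ) := by
  rw [spinUp_conj_map, spinUp_map]
  have h : (rP n).map (Complex.ofRealHom : ℝ → ℂ) * (rM n).map (Complex.ofRealHom : ℝ → ℂ) =
      (rP n * rM n).map (Complex.ofRealHom : ℝ → ℂ) := Matrix.map_mul.symm
  have h2 : (rP n).map Complex.ofReal * (rM n).map Complex.ofReal =
      (rP n * rM n).map Complex.ofReal := h
  rw [h2, rP_mul_rM, map_diag]

lemma cMP (n : ℕ) : (spinUp n)ᴴ * spinUp n =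
    Matrix.diagonal fun k : Fin (n + 1) =>
      ((((k : ℕ) : ℝ) * ((n : ℝ) + 1 - ((k : ℕ) : ℝ)) : ℝ) : ℂ) := by
  rw [spinUp_conj_map, spinUp_map]
  have h : (rM n).map (Complex.ofRealHom : ℝ → ℂ) * (rP n).map (Complex.ofRealHom : ℝ → ℂ) =
      (rM n * rP n).map (Complex.ofRealHom : ℝ → ℂ) := Matrix.map_mul.symm
  have h2 : (rM n).map Complex.ofReal * (rP n).map Complex.ofReal =
      (rM n * rP n).map Complex.ofReal := h
  rw [h2, rM_mul_rP, map_diag]

theorem spin_casimir (n : ℕ) : spin1 n * spin1 n + spin2 n * spin2 n + spin3 n * spin3 n =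
    ((n : ℂ) / 2 * ((n : ℂ) / 2 + 1)) • (1 : Matrix (Fin (n + 1)) (Fin (n + 1)) ℂ) := by
  have e1 : spin1 n * spin1 n + spin2 n * spin2 n =
      (1 / 2 : ℂ) • (spinUp n * (spinUp n)ᴴ + (spinUp n)ᴴ * spinUp n) := by
    unfold spin1 spin2
    rw [inv_two_I]
    have hI : -(Complex.I / 2) * -(Complex.I / 2) = -(1 / 4) := by
      ring_nf; simp; norm_num
    simp only [smul_mul_smul_comm, mul_add, add_mul, mul_sub, sub_mul, smul_sub, smul_add,
      hI]
    module
  rw [e1, cPM, cMP, spin3, Matrix.diagonal_mul_diagonal, Matrix.diagonal_add,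
    ← Matrix.diagonal_smul, Matrix.diagonal_add, ← Matrix.diagonal_one, ← Matrix.diagonal_smul]
  congr 1
  funext k
  simp only [Pi.smul_apply, smul_eq_mul]
  push_cast
  ring

lemma Jt_continuous : Continuous Jt := by
  have h : Continuous fun t : ℝ => ∫ θ in (0 : ℝ)..Real.pi, Real.exp (-(t * θ ^ 2 / 2)) :=
    intervalIntegral.continuous_parametric_intervalIntegral_of_continuous' (by fun_prop) _ _
  exact continuous_const.mul h

/-- The inequality at every temperature. -/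
theorem all_temp (n : ℕ) (β : ℝ) (hβ : 0 < β) (K : ℕ) :
    spontMag n β * ∑ ν ∈ Finset.range K, ((1 / Real.pi) * ∫ θ in (0 : ℝ)..Real.pi,
      Real.exp (-(((ν : ℝ) + 1) * β * ((n : ℝ) / 2) ^ 2 * θ ^ 2 / spontMag n β))) ^ 3 ≤
      (n : ℝ) / 2 * ((n : ℝ) / 2 - spontMag n β) := by
  have hint : ∀ m : ℝ, ∀ ν : ℕ, Jt (tau n β m ν) = (1 / Real.pi) * ∫ θ in (0 : ℝ)..Real.pi,
      Real.exp (-(((ν : ℝ) + 1) * β * ((n : ℝ) / 2) ^ 2 * θ ^ 2 / m)) := by
    intro m ν
    unfold Jt tau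
    congr 1
    apply intervalIntegral.integral_congr
    intro θ _
    show Real.exp _ = Real.exp _
    congr 1
    by_cases hm : m = 0
    · rw [hm]; simp
    · field_simp
  simp only [← hint]
  set m := spontMag n β with hmdef
  rcases le_or_gt m 0 with hm | hm
  · have h1 : 0 ≤ ∑ ν ∈ Finset.range K, (Jt (tau n β m ν)) ^ 3 :=
      Finset.sum_nonneg fun ν _ => pow_nonneg (Jt_nonneg _) 3
    have h2 : 0 ≤ (n : ℝ) / 2 * ((n : ℝ) / 2 - m) := by
      apply mul_nonneg (by positivity)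
      have : (0 : ℝ) ≤ (n : ℝ) / 2 := by positivity
      linarith
    have h3 := mul_nonneg (neg_nonneg.mpr hm) h1
    linarith
  · have hcont : ContinuousAt (fun m' : ℝ => 2 * m' * ∑ ν ∈ Finset.range K,
        (Jt (tau n β m' ν)) ^ 3) m := by
      apply ContinuousAt.mul (by fun_prop)
      apply tendsto_finsetSum
      intro ν _
      apply Tendsto.pow
      have ht : ContinuousAt (fun m' : ℝ => tau n β m' ν) m := by
        unfold tau
        apply ContinuousAt.div (by fun_prop) (by fun_prop)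
        positivity
      exact (Jt_continuous.continuousAt (x := tau n β m ν)).tendsto.comp ht
    have h1 : Tendsto (fun m' : ℝ => 2 * m' * ∑ ν ∈ Finset.range K,
        (Jt (tau n β m' ν)) ^ 3) (𝓝[<] m) (𝓝 (2 * m * ∑ ν ∈ Finset.range K,
        (Jt (tau n β m ν)) ^ 3)) := hcont.tendsto.mono_left nhdsWithin_le_nhds
    have h2 : Tendsto (fun m' : ℝ => (n : ℝ) * ((n : ℝ) / 2 - m')) (𝓝[<] m)
        (𝓝 ((n : ℝ) * ((n : ℝ) / 2 - m))) := by
      apply Tendsto.mono_left _ nhdsWithin_le_nhds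
      apply Continuous.tendsto
      fun_prop
    have h3 : ∀ᶠ m' : ℝ in 𝓝[<] m, 2 * m' * ∑ ν ∈ Finset.range K,
        (Jt (tau n β m' ν)) ^ 3 ≤ (n : ℝ) * ((n : ℝ) / 2 - m') := by
      have hpos : ∀ᶠ m' : ℝ in 𝓝[<] m, 0 < m' :=
        (lt_mem_nhds hm).filter_mono nhdsWithin_le_nhds
      filter_upwards [hpos, self_mem_nhdsWithin] with m' hp hlt
      exact step_D n β hβ K m' hp hlt
    have h4 := le_of_tendsto_of_tendsto h1 h2 h3
    linarith

end Vale.Agent.P361
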