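import Vale.Agent.P361.Defs

/-!
Operators acting on one tensor factor of `⨂_{x ∈ Λ} R^d`, as matrices indexed by
configurations `Λ → d`.
-/

set_option linter.unusedSectionVars false

namespace Vale.Agent.P361

open Matrix Finset

variable {Λ d R : Type*} [Fintype Λ] [DecidableEq Λ] [Fintype d] [DecidableEq d]

section semiring
variable [CommSemiring R]

lemma site_mulVec (x : Λ) (A : Matrix d d R) (ψ : (Λ → d) → R) (σ : Λ → d) :
    (site x A *ᵥ ψ) σ = ∑ k, A (σ x) k * ψ (Function.update σ x k) := by
  symm
  unfold site Matrix.mulVec dotProduct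
  apply Fintype.sum_of_injective (fun k => Function.update σ x k)
  · intro k l h
    have := congrFun h x
    simpa using this
  · intro τ hτ
    have : ¬ ∀ y, y ≠ x → σ y = τ y := by
      intro h
      apply hτ
      refine ⟨τ x, ?_⟩
      funext y
      by_cases hy : y = x
      · subst hy; simp
      · show Function.update σ x (τ x) y = τ y
        rw [Function.update_of_ne hy]; exact h y hy
    simp [this]
  · intro k
    have : ∀ y, y ≠ x → σ y = Function.update σ x k y := by
      intro y hy
      rw [Function.update_of_ne hy]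
    show A (σ x) k * ψ (Function.update σ x k) =
      (if ∀ y, y ≠ x → σ y = Function.update σ x k y then
        A (σ x) (Function.update σ x k x) else 0) * ψ (Function.update σ x k)
    rw [if_pos this, Function.update_self]

lemma mat_ext_of_mulVec {ι : Type*} [Fintype ι] [DecidableEq ι] {M N : Matrix ι ι R}
    (h : ∀ ψ : ι → R, M *ᵥ ψ = N *ᵥ ψ) : M = N :=
  Matrix.ext_of_mulVec_single fun _ => h _

lemma site_mul (x : Λ) (A B : Matrix d d R) : site x A * site x B = site x (A * B) := by
  apply mat_ext_of_mulVec
  intro ψ
  rw [← Matrix.mulVec_mulVec]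
  funext σ
  simp only [site_mulVec, Function.update_self, Function.update_idem, Matrix.mul_apply,
    Finset.mul_sum, Finset.sum_mul]
  rw [Finset.sum_comm]
  simp only [mul_assoc]

lemma site_comm {x y : Λ} (h : x ≠ y) (A B : Matrix d d R) :
    site x A * site y B = site y B * site x A := by
  apply mat_ext_of_mulVec
  intro ψ
  rw [← Matrix.mulVec_mulVec, ← Matrix.mulVec_mulVec]
  funext σ
  simp only [site_mulVec, Finset.mul_sum]
  rw [Finset.sum_comm]
  apply Finset.sum_congr rfl
  intro l _
  apply Finset.sum_congr rfl
  intro k _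
  rw [Function.update_of_ne h.symm, Function.update_of_ne h, Function.update_comm h]
  ring

lemma site_one (x : Λ) : site x (1 : Matrix d d R) = 1 := by
  apply mat_ext_of_mulVec
  intro ψ
  funext σ
  rw [site_mulVec, Matrix.one_mulVec]
  simp [Matrix.one_apply]

lemma site_add (x : Λ) (A B : Matrix d d R) : site x (A + B) = site x A + site x B := by
  ext σ τ
  simp only [site, Matrix.of_apply, Matrix.add_apply]
  split_ifs <;> simp

lemma site_smul (x : Λ) (c : R) (A : Matrix d d R) : site x (c • A) = c • site x A := by
  ext σ τ
  simp only [site, Matrix.of_apply, Matrix.smul_apply]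
  split_ifs <;> simp

lemma site_transpose (x : Λ) (A : Matrix d d R) : (site x A)ᵀ = site x Aᵀ := by
  ext σ τ
  simp only [site, Matrix.of_apply, Matrix.transpose_apply]
  have : (∀ y, y ≠ x → τ y = σ y) ↔ (∀ y, y ≠ x → σ y = τ y) :=
    ⟨fun h y hy => (h y hy).symm, fun h y hy => (h y hy).symm⟩
  simp only [this]

lemma site_diagonal (x : Λ) (v : d → R) :
    site x (Matrix.diagonal v) = Matrix.diagonal (fun σ => v (σ x)) := by
  ext σ τ
  simp only [site, Matrix.of_apply, Matrix.diagonal_apply]
  by_cases h : σ = τ
  · subst h; simp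
  · rw [if_neg h]
    split_ifs with h1 h2
    · exfalso
      apply h
      funext y
      by_cases hy : y = x
      · subst hy; exact h2
      · exact h1 y hy
    · rfl
    · rfl

lemma site_map {S : Type*} [CommSemiring S] (f : R →+* S) (x : Λ) (A : Matrix d d R) :
    (site x A).map f = site x (A.map f) := by
  ext σ τ
  simp only [site, Matrix.of_apply, Matrix.map_apply]
  split_ifs <;> simp

end semiring

section ring
variable [CommRing R]

lemma site_neg (x : Λ) (A : Matrix d d R) : site x (-A) = -site x A := by
  ext σ τ
  simp only [site, Matrix.of_apply, Matrix.neg_apply]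
  split_ifs <;> simp

lemma site_sub (x : Λ) (A B : Matrix d d R) : site x (A - B) = site x A - site x B := by
  ext σ τ
  simp only [site, Matrix.of_apply, Matrix.sub_apply]
  split_ifs <;> simp

end ring

lemma site_conjTranspose (x : Λ) (A : Matrix d d ℂ) : (site x A)ᴴ = site x Aᴴ := by
  ext σ τ
  simp only [site, Matrix.of_apply, Matrix.conjTranspose_apply]
  have : (∀ y, y ≠ x → τ y = σ y) ↔ (∀ y, y ≠ x → σ y = τ y) :=
    ⟨fun h y hy => (h y hy).symm, fun h y hy => (h y hy).symm⟩
  simp only [this]
  split_ifs <;> simp

end Vale.Agent.P361
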