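import Mathlib

/-!
Local spin algebra (real matrices of size `n + 1`, spin `S = n / 2`).
-/

set_option linter.unusedSectionVars false

namespace Vale.Agent.P361

open Matrix Finset

/-- `S^3` as a real matrix. -/
noncomputable def rZ (n : ℕ) : Matrix (Fin (n + 1)) (Fin (n + 1)) ℝ :=
  Matrix.diagonal fun k => (n : ℝ) / 2 - ((k : ℕ) : ℝ)

/-- The raising matrix `S^+`. -/
noncomputable def rP (n : ℕ) : Matrix (Fin (n + 1)) (Fin (n + 1)) ℝ :=
  Matrix.of fun i j =>
    if (i : ℕ) + 1 = (j : ℕ) then Real.sqrt (((j : ℕ) : ℝ) * ((n : ℝ) + 1 - ((j : ℕ) : ℝ))) else 0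

/-- The lowering matrix `S^-`. -/
noncomputable def rM (n : ℕ) : Matrix (Fin (n + 1)) (Fin (n + 1)) ℝ := (rP n)ᵀ

/-- First boson amplitude. -/
noncomputable def rA (n : ℕ) : Matrix (Fin (n + 1)) (Fin (n + 1)) ℝ :=
  Matrix.diagonal fun k => Real.sqrt ((n : ℝ) - ((k : ℕ) : ℝ))

/-- Second boson amplitude. -/
noncomputable def rB (n : ℕ) : Matrix (Fin (n + 1)) (Fin (n + 1)) ℝ :=
  Matrix.of fun i j => if (i : ℕ) + 1 = (j : ℕ) then Real.sqrt ((j : ℕ) : ℝ) else 0

/-- Defect of the number bound. -/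
noncomputable def rC (n : ℕ) : Matrix (Fin (n + 1)) (Fin (n + 1)) ℝ :=
  Matrix.diagonal fun k => Real.sqrt (((k : ℕ) : ℝ) * (((k : ℕ) : ℝ) - 1))

lemma fin_le_n {n : ℕ} (k : Fin (n + 1)) : ((k : ℕ) : ℝ) ≤ n := by
  have := k.2
  have h : (k : ℕ) ≤ n := by omega
  exact_mod_cast h

lemma rA_mul_rA (n : ℕ) : rA n * rA n = ((n : ℝ) / 2) • (1 : Matrix _ _ ℝ) + rZ n := by
  unfold rA rZ
  rw [Matrix.diagonal_mul_diagonal, ← Matrix.diagonal_one, ← Matrix.diagonal_smul,
    Matrix.diagonal_add]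
  congr 1
  funext k
  have := fin_le_n k
  rw [Real.mul_self_sqrt (by linarith)]
  simp
  ring

lemma rC_mul_rC (n : ℕ) : (rC n)ᵀ * rC n =
    Matrix.diagonal fun k : Fin (n + 1) => ((k : ℕ) : ℝ) * (((k : ℕ) : ℝ) - 1) := by
  unfold rC
  rw [Matrix.diagonal_transpose, Matrix.diagonal_mul_diagonal]
  congr 1
  funext k
  apply Real.mul_self_sqrt
  rcases Nat.eq_zero_or_pos (k : ℕ) with h | h
  · rw [h]; simp
  · have : (1 : ℝ) ≤ ((k : ℕ) : ℝ) := by exact_mod_cast h
    nlinarith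

lemma rP_eq (n : ℕ) : rP n = rA n * rB n := by
  ext i j
  unfold rP rA rB
  rw [Matrix.diagonal_mul]
  simp only [Matrix.of_apply]
  split_ifs with h
  · have hi := fin_le_n i
    rw [← Real.sqrt_mul (by linarith)]
    congr 1
    have : ((j : ℕ) : ℝ) = ((i : ℕ) : ℝ) + 1 := by rw [← h]; push_cast; ring
    rw [this]; ring
  · simp

lemma sum_pred {n : ℕ} (i j : Fin (n + 1)) (f : ℕ → ℝ) (hf : ∀ m, m = 0 → f m = 0) :
    ∑ k : Fin (n + 1), (if (k : ℕ) + 1 = (i : ℕ) then f i else 0) *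
      (if (k : ℕ) + 1 = (j : ℕ) then f j else 0) = if i = j then f i * f i else 0 := by
  by_cases hij : i = j
  · subst hij
    rw [if_pos rfl]
    rcases Nat.eq_zero_or_pos (i : ℕ) with h0 | h0
    · rw [hf _ h0]; simp
    · have hlt : (i : ℕ) - 1 < n + 1 := by have := i.2; omega
      rw [Finset.sum_eq_single (⟨(i : ℕ) - 1, hlt⟩ : Fin (n + 1))]
      · have : ((⟨(i : ℕ) - 1, hlt⟩ : Fin (n + 1)) : ℕ) + 1 = (i : ℕ) := by
          show (i : ℕ) - 1 + 1 = i
          omega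
        rw [if_pos this]
      · intro k _ hk
        have : ¬ (k : ℕ) + 1 = (i : ℕ) := by
          intro h
          apply hk
          apply Fin.ext
          show (k : ℕ) = (i : ℕ) - 1
          omega
        rw [if_neg this]; simp
      · intro h; exact absurd (Finset.mem_univ _) h
  · rw [if_neg hij]
    apply Finset.sum_eq_zero
    intro k _
    by_cases h1 : (k : ℕ) + 1 = (i : ℕ)
    · have h2 : ¬ (k : ℕ) + 1 = (j : ℕ) := by
        intro h2; apply hij; apply Fin.ext; omega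
      rw [if_neg h2]; simp
    · rw [if_neg h1]; simp

lemma rB_mul_rB (n : ℕ) : (rB n)ᵀ * rB n = ((n : ℝ) / 2) • (1 : Matrix _ _ ℝ) - rZ n := by
  have h1 : (rB n)ᵀ * rB n = Matrix.diagonal fun k : Fin (n + 1) => ((k : ℕ) : ℝ) := by
    ext i j
    rw [Matrix.mul_apply]
    simp only [rB, Matrix.transpose_apply, Matrix.of_apply]
    rw [sum_pred i j (fun m => Real.sqrt (m : ℝ)) (by intro m hm; rw [hm]; simp),
      Matrix.diagonal_apply]
    by_cases hij : i = j
    · rw [if_pos hij, if_pos hij]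
      exact Real.mul_self_sqrt (Nat.cast_nonneg _)
    · rw [if_neg hij, if_neg hij]
  rw [h1]
  unfold rZ
  rw [← Matrix.diagonal_one, ← Matrix.diagonal_smul, Matrix.diagonal_sub]
  congr 1
  funext k
  simp

lemma rM_mul_rP (n : ℕ) : rM n * rP n =
    Matrix.diagonal fun k : Fin (n + 1) => ((k : ℕ) : ℝ) * ((n : ℝ) + 1 - ((k : ℕ) : ℝ)) := by
  ext i j
  rw [Matrix.mul_apply]
  simp only [rM, rP, Matrix.transpose_apply, Matrix.of_apply]
  rw [sum_pred i j (fun m => Real.sqrt ((m : ℝ) * ((n : ℝ) + 1 - (m : ℝ))))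
    (by intro m hm; rw [hm]; simp), Matrix.diagonal_apply]
  by_cases hij : i = j
  · rw [if_pos hij, if_pos hij]
    apply Real.mul_self_sqrt
    have := fin_le_n i
    apply mul_nonneg (Nat.cast_nonneg _)
    linarith
  · rw [if_neg hij, if_neg hij]

lemma rP_mul_rM (n : ℕ) : rP n * rM n =
    Matrix.diagonal fun k : Fin (n + 1) => (((k : ℕ) : ℝ) + 1) * ((n : ℝ) - ((k : ℕ) : ℝ)) := by
  ext i j
  rw [Matrix.mul_apply]
  simp only [rM, rP, Matrix.transpose_apply, Matrix.of_apply]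
  rw [Matrix.diagonal_apply]
  by_cases hij : i = j
  · subst hij
    rw [if_pos rfl]
    by_cases hn : (i : ℕ) + 1 < n + 1
    · rw [Finset.sum_eq_single (⟨(i : ℕ) + 1, hn⟩ : Fin (n + 1))]
      · rw [if_pos rfl]
        have := fin_le_n i
        rw [Real.mul_self_sqrt]
        · push_cast; ring
        · push_cast
          apply mul_nonneg (by positivity)
          linarith
      · intro k _ hk
        have : ¬ (i : ℕ) + 1 = (k : ℕ) := by
          intro h; apply hk; apply Fin.ext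
          show (k : ℕ) = (i : ℕ) + 1
          omega
        rw [if_neg this]; simp
      · intro h; exact absurd (Finset.mem_univ _) h
    · have hi : (i : ℕ) = n := by have := i.2; omega
      rw [hi, sub_self, mul_zero]
      apply Finset.sum_eq_zero
      intro k _
      have : ¬ n + 1 = (k : ℕ) := by have := k.2; omega
      rw [if_neg this]; simp
  · rw [if_neg hij]
    apply Finset.sum_eq_zero
    intro k _
    by_cases h1 : (i : ℕ) + 1 = (k : ℕ)
    · have h2 : ¬ (j : ℕ) + 1 = (k : ℕ) := by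
        intro h2; apply hij; apply Fin.ext; omega
      rw [if_neg h2]; simp
    · rw [if_neg h1]; simp

/-- `[S^+, S^-] = 2 S^3`. -/
lemma comm_PM (n : ℕ) : rP n * rM n - rM n * rP n = (2 : ℝ) • rZ n := by
  rw [rP_mul_rM, rM_mul_rP, rZ, Matrix.diagonal_sub, ← Matrix.diagonal_smul]
  congr 1
  funext k
  simp only [Pi.smul_apply, smul_eq_mul]
  ring

/-- `[S^3, S^-] = -S^-`. -/
lemma comm_ZM (n : ℕ) : rZ n * rM n - rM n * rZ n = -rM n := by
  ext i j
  unfold rZ rM rP
  rw [Matrix.sub_apply, Matrix.diagonal_mul, Matrix.mul_diagonal, Matrix.neg_apply]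
  simp only [Matrix.transpose_apply, Matrix.of_apply]
  split_ifs with h
  · have : ((i : ℕ) : ℝ) = ((j : ℕ) : ℝ) + 1 := by rw [← h]; push_cast; ring
    rw [this]; ring
  · simp

/-- `[S^+, S^3] = -S^+`. -/
lemma comm_PZ (n : ℕ) : rP n * rZ n - rZ n * rP n = -rP n := by
  ext i j
  unfold rZ rP
  rw [Matrix.sub_apply, Matrix.diagonal_mul, Matrix.mul_diagonal, Matrix.neg_apply]
  simp only [Matrix.of_apply]
  split_ifs with h
  · have : ((j : ℕ) : ℝ) = ((i : ℕ) : ℝ) + 1 := by rw [← h]; push_cast; ring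
    rw [this]; ring
  · simp

/-- `S^- S^+ ≤ 2S (S - S^3)`, with explicit defect. -/
lemma number_bound (n : ℕ) : (n : ℝ) • (((n : ℝ) / 2) • (1 : Matrix _ _ ℝ) - rZ n)
    - rM n * rP n = (rC n)ᵀ * rC n := by
  rw [rM_mul_rP, rC_mul_rC, rZ, ← Matrix.diagonal_one, ← Matrix.diagonal_smul,
    Matrix.diagonal_sub, ← Matrix.diagonal_smul, Matrix.diagonal_sub]
  congr 1
  funext k
  simp
  ring

lemma rM_eq (n : ℕ) : rM n = (rB n)ᵀ * rA n := by
  unfold rM
  rw [rP_eq, Matrix.transpose_mul]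
  congr 1
  unfold rA
  rw [Matrix.diagonal_transpose]

lemma rA_transpose (n : ℕ) : (rA n)ᵀ = rA n := by
  unfold rA
  rw [Matrix.diagonal_transpose]

lemma rZ_transpose (n : ℕ) : (rZ n)ᵀ = rZ n := by
  unfold rZ
  rw [Matrix.diagonal_transpose]

end Vale.Agent.P361
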