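import Vale.Agent.P361.Gibbs
import Vale.Agent.P361.Site
import Vale.Agent.P361.SpinAlg

/-!
Finite-volume magnetization bound for the Heisenberg ferromagnet with real symmetric
nonnegative couplings on an arbitrary finite set of sites.
-/

set_option linter.unusedSectionVars false

namespace Vale.Agent.P361

open Matrix Finset

section abstract_alg
variable {R : Type*} [Ring R] [Algebra ℝ R]

/-- Commutator. -/
def cm (X Y : R) : R := X * Y - Y * X

lemma cm_def (X Y : R) : cm X Y = X * Y - Y * X := rfl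

lemma cm_zero_left (X : R) : cm 0 X = 0 := by simp [cm]

lemma cm_zero_right (X : R) : cm X 0 = 0 := by simp [cm]

lemma cm_add_right (X Y Z : R) : cm X (Y + Z) = cm X Y + cm X Z := by
  simp only [cm, mul_add, add_mul]; abel

lemma cm_neg_left (X Y : R) : cm (-X) Y = -cm X Y := by
  simp only [cm, neg_mul, mul_neg]; abel

lemma cm_neg_right (X Y : R) : cm X (-Y) = -cm X Y := by
  simp only [cm, neg_mul, mul_neg]; abel

lemma cm_sub_left (X Y Z : R) : cm (X - Y) Z = cm X Z - cm Y Z := by
  simp only [cm, mul_sub, sub_mul]; abel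

lemma cm_smul_left (c : ℝ) (X Y : R) : cm (c • X) Y = c • cm X Y := by
  simp only [cm, smul_mul_assoc, mul_smul_comm, smul_sub]

lemma cm_smul_right (c : ℝ) (X Y : R) : cm X (c • Y) = c • cm X Y := by
  simp only [cm, smul_mul_assoc, mul_smul_comm, smul_sub]

lemma cm_sum_left {ι : Type*} (s : Finset ι) (f : ι → R) (Y : R) :
    cm (∑ i ∈ s, f i) Y = ∑ i ∈ s, cm (f i) Y := by
  simp only [cm, Finset.sum_mul, Finset.mul_sum, Finset.sum_sub_distrib]

lemma cm_sum_right {ι : Type*} (s : Finset ι) (X : R) (f : ι → R) :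
    cm X (∑ i ∈ s, f i) = ∑ i ∈ s, cm X (f i) := by
  simp only [cm, Finset.sum_mul, Finset.mul_sum, Finset.sum_sub_distrib]

lemma alg_dot_left (z p m z' p' m' : R) (h1 : z' * m = m * z') (h2 : m' * m = m * m')
    (h3 : p' * m = m * p') (hz : z * m - m * z = -m) (hp : p * m - m * p = (2 : ℝ) • z) :
    cm (z * z' + (1 / 2 : ℝ) • (p * m' + m * p')) (m) = z * m' - m * z' := by
  have e : (z * z' + (1 / 2 : ℝ) • (p * m' + m * p')) * m -
      m * (z * z' + (1 / 2 : ℝ) • (p * m' + m * p')) =
      (z * m - m * z) * z' + (1 / 2 : ℝ) • ((p * m - m * p) * m') := by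
    simp only [add_mul, mul_add, smul_mul_assoc, mul_smul_comm, sub_mul, mul_assoc, h1, h2, h3,
      smul_add, smul_sub]
    abel
  rw [cm_def, e, hz, hp, smul_mul_assoc, smul_smul]
  norm_num
  abel

lemma alg_dot_right (z p m z' p' m' : R) (h1 : m' * z = z * m') (h2 : m' * p = p * m')
    (h3 : m' * m = m * m') (hz : z' * m' - m' * z' = -m')
    (hp : p' * m' - m' * p' = (2 : ℝ) • z') :
    cm (z * z' + (1 / 2 : ℝ) • (p * m' + m * p')) (m') = -(z * m' - m * z') := by
  have e : (z * z' + (1 / 2 : ℝ) • (p * m' + m * p')) * m' -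
      m' * (z * z' + (1 / 2 : ℝ) • (p * m' + m * p')) =
      z * (z' * m' - m' * z') + (1 / 2 : ℝ) • (m * (p' * m' - m' * p')) := by
    simp only [add_mul, mul_add, smul_mul_assoc, mul_smul_comm, mul_sub, ← mul_assoc, h1, h2, h3,
      smul_add, smul_sub]
    abel
  rw [cm_def, e, hz, hp, mul_smul_comm, smul_smul]
  norm_num
  abel

lemma alg_w_left (z p m z' m' : R) (h1 : m' * p = p * m') (h2 : z' * p = p * z')
    (hpz : p * z - z * p = -p) (hp : p * m - m * p = (2 : ℝ) • z) :
    cm (p) (z * m' - m * z') = -(p * m' + (2 : ℝ) • (z * z')) := by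
  have e : p * (z * m' - m * z') - (z * m' - m * z') * p =
      (p * z - z * p) * m' - (p * m - m * p) * z' := by
    simp only [mul_sub, sub_mul, mul_assoc, h1, h2]
    abel
  rw [cm_def, e, hpz, hp, smul_mul_assoc, neg_mul, neg_add]
  abel

lemma alg_w_right (z m z' p' m' : R) (h1 : p' * z = z * p') (h2 : p' * m = m * p')
    (hpz : p' * z' - z' * p' = -p') (hp : p' * m' - m' * p' = (2 : ℝ) • z') :
    cm (p') (z * m' - m * z') = (2 : ℝ) • (z * z') + m * p' := by
  have e : p' * (z * m' - m * z') - (z * m' - m * z') * p' =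
      z * (p' * m' - m' * p') - m * (p' * z' - z' * p') := by
    simp only [mul_sub, sub_mul, ← mul_assoc, h1, h2]
    abel
  rw [cm_def, e, hpz, hp, mul_smul_comm]
  simp

end abstract_alg

variable {Λ : Type*} [Fintype Λ] [DecidableEq Λ]

/-- The coupling `S_x · S_y` in real form. -/
noncomputable def dotR (n : ℕ) (x y : Λ) : Matrix (Λ → Fin (n + 1)) (Λ → Fin (n + 1)) ℝ :=
  site x (rZ n) * site y (rZ n) + (1 / 2 : ℝ) • (site x (rP n) * site y (rM n) +
    site x (rM n) * site y (rP n))

/-- Ferromagnetic Heisenberg Hamiltonian with couplings `J`, real form. -/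
noncomputable def hamR (n : ℕ) (J : Λ → Λ → ℝ) :
    Matrix (Λ → Fin (n + 1)) (Λ → Fin (n + 1)) ℝ :=
  -((1 / 2 : ℝ) • ∑ x, ∑ y, J x y • dotR n x y)

/-- Total magnetization, real form. -/
noncomputable def magR (n : ℕ) : Matrix (Λ → Fin (n + 1)) (Λ → Fin (n + 1)) ℝ :=
  ∑ x : Λ, site x (rZ n)

/-- Raising mode. -/
noncomputable def modeP (n : ℕ) (u : Λ → ℝ) : Matrix (Λ → Fin (n + 1)) (Λ → Fin (n + 1)) ℝ :=
  ∑ x, u x • site x (rP n)

/-- Lowering mode. -/
noncomputable def modeM (n : ℕ) (u : Λ → ℝ) : Matrix (Λ → Fin (n + 1)) (Λ → Fin (n + 1)) ℝ :=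
  ∑ x, u x • site x (rM n)

lemma rM_transpose (n : ℕ) : (rM n)ᵀ = rP n := by
  unfold rM; rw [Matrix.transpose_transpose]

lemma rP_transpose (n : ℕ) : (rP n)ᵀ = rM n := rfl

lemma modeP_transpose (n : ℕ) (u : Λ → ℝ) : (modeP n u)ᵀ = modeM n u := by
  unfold modeP modeM
  rw [Matrix.transpose_sum]
  apply Finset.sum_congr rfl
  intro x _
  rw [Matrix.transpose_smul, site_transpose, rP_transpose]

lemma site_PM (n : ℕ) (x : Λ) : site x (rP n) * site x (rM n) - site x (rM n) * site x (rP n) =
    (2 : ℝ) • site x (rZ n) := by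
  rw [site_mul, site_mul, ← site_sub, comm_PM, site_smul]

lemma site_ZM (n : ℕ) (x : Λ) : site x (rZ n) * site x (rM n) - site x (rM n) * site x (rZ n) =
    -site x (rM n) := by
  rw [site_mul, site_mul, ← site_sub, comm_ZM, site_neg]

lemma site_PZ (n : ℕ) (x : Λ) : site x (rP n) * site x (rZ n) - site x (rZ n) * site x (rP n) =
    -site x (rP n) := by
  rw [site_mul, site_mul, ← site_sub, comm_PZ, site_neg]

lemma site_comm3 {n : ℕ} {x y z : Λ} (hx : z ≠ x) (hy : z ≠ y)
    (A B C : Matrix (Fin (n + 1)) (Fin (n + 1)) ℝ) :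
    (site x A * site y B) * site z C = site z C * (site x A * site y B) := by
  rw [Matrix.mul_assoc, site_comm (Ne.symm hy), ← Matrix.mul_assoc, site_comm (Ne.symm hx),
    Matrix.mul_assoc]

lemma lie_modeP_modeM (n : ℕ) (u : Λ → ℝ) :
    cm (modeP n u) (modeM n u) = ∑ x, (2 * u x ^ 2) • site x (rZ n) := by
  unfold modeP modeM
  rw [cm_sum_left]
  apply Finset.sum_congr rfl
  intro x _
  rw [cm_sum_right, Finset.sum_eq_single x]
  · rw [cm_smul_left, cm_smul_right, cm_def, site_PM, smul_smul, smul_smul]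
    congr 1; ring
  · intro y _ hy
    rw [cm_smul_left, cm_smul_right, cm_def, site_comm hy.symm, sub_self, smul_zero, smul_zero]
  · intro h; exact absurd (Finset.mem_univ _) h

lemma lie_dot_modeM (n : ℕ) (u : Λ → ℝ) {x y : Λ} (hxy : x ≠ y) :
    cm (dotR n x y) (modeM n u) = (u x - u y) •
      (site x (rZ n) * site y (rM n) - site x (rM n) * site y (rZ n)) := by
  unfold modeM
  rw [cm_sum_right, Finset.sum_eq_add x y hxy]
  · have h1 : cm (dotR n x y) (site x (rM n)) =
        site x (rZ n) * site y (rM n) - site x (rM n) * site y (rZ n) := by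
      unfold dotR
      exact alg_dot_left _ _ _ _ _ _ (site_comm hxy.symm _ _) (site_comm hxy.symm _ _)
        (site_comm hxy.symm _ _) (site_ZM n x) (site_PM n x)
    have h2 : cm (dotR n x y) (site y (rM n)) =
        -(site x (rZ n) * site y (rM n) - site x (rM n) * site y (rZ n)) := by
      unfold dotR
      exact alg_dot_right _ _ _ _ _ _ (site_comm hxy.symm _ _) (site_comm hxy.symm _ _)
        (site_comm hxy.symm _ _) (site_ZM n y) (site_PM n y)
    rw [cm_smul_right, cm_smul_right, h1, h2, sub_smul]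
    simp only [smul_neg, sub_eq_add_neg]
  · intro z _ hz
    have e : ∀ (A B C : Matrix (Fin (n + 1)) (Fin (n + 1)) ℝ),
        (site x A * site y B) * site z C = site z C * (site x A * site y B) := fun A B C =>
      site_comm3 hz.1 hz.2 A B C
    rw [cm_smul_right, cm_def]
    unfold dotR
    rw [add_mul, mul_add, smul_mul_assoc, mul_smul_comm, add_mul, mul_add, e, e, e, sub_self,
      smul_zero]
  · intro h; exact absurd (Finset.mem_univ _) h
  · intro h; exact absurd (Finset.mem_univ _) h

lemma lie_modeP_W (n : ℕ) (u : Λ → ℝ) {x y : Λ} (hxy : x ≠ y) :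
    cm (modeP n u) (site x (rZ n) * site y (rM n) - site x (rM n) * site y (rZ n)) =
      -(u x • (site x (rP n) * site y (rM n) + (2 : ℝ) • (site x (rZ n) * site y (rZ n)))) +
      u y • ((2 : ℝ) • (site x (rZ n) * site y (rZ n)) + site x (rM n) * site y (rP n)) := by
  unfold modeP
  rw [cm_sum_left, Finset.sum_eq_add x y hxy]
  · have h1 := alg_w_left (site x (rZ n)) (site x (rP n)) (site x (rM n)) (site y (rZ n))
      (site y (rM n)) (site_comm hxy.symm _ _) (site_comm hxy.symm _ _)
      (site_PZ n x) (site_PM n x)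
    have h2 := alg_w_right (site x (rZ n)) (site x (rM n)) (site y (rZ n))
      (site y (rP n)) (site y (rM n)) (site_comm hxy.symm _ _) (site_comm hxy.symm _ _)
      (site_PZ n y) (site_PM n y)
    rw [cm_smul_left, cm_smul_left, h1, h2, smul_neg]
  · intro z _ hz
    have e : ∀ (A B C : Matrix (Fin (n + 1)) (Fin (n + 1)) ℝ),
        site z C * (site x A * site y B) = (site x A * site y B) * site z C := fun A B C =>
      (site_comm3 hz.1 hz.2 A B C).symm
    rw [cm_smul_left, cm_def, mul_sub, sub_mul, e, e, sub_self, smul_zero]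
  · intro h; exact absurd (Finset.mem_univ _) h
  · intro h; exact absurd (Finset.mem_univ _) h

lemma lie_mag_modeM (n : ℕ) (u : Λ → ℝ) : cm (magR (Λ := Λ) n) (modeM n u) = -modeM n u := by
  unfold magR modeM
  rw [cm_sum_left, ← Finset.sum_neg_distrib]
  apply Finset.sum_congr rfl
  intro x _
  rw [cm_sum_right, Finset.sum_eq_single x]
  · rw [cm_smul_right, cm_def, site_ZM, smul_neg]
  · intro y _ hy
    rw [cm_smul_right, cm_def, site_comm hy.symm, sub_self, smul_zero]
  · intro h; exact absurd (Finset.mem_univ _) h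

/-- The double commutator. -/
lemma double_comm (n : ℕ) (J : Λ → Λ → ℝ) (hJ0 : ∀ x, J x x = 0) (h : ℝ) (u : Λ → ℝ) :
    cm (modeP n u) (cm (hamR n J - h • magR n) (modeM n u)) =
      (1 / 2 : ℝ) • (∑ x, ∑ y, (J x y * (u x - u y)) •
        (u x • (site x (rP n) * site y (rM n) + (2 : ℝ) • (site x (rZ n) * site y (rZ n))) -
          u y • ((2 : ℝ) • (site x (rZ n) * site y (rZ n)) + site x (rM n) * site y (rP n)))) +
      h • cm (modeP n u) (modeM n u) := by
  have e1 : cm (hamR n J) (modeM n u) = -((1 / 2 : ℝ) • ∑ x, ∑ y, (J x y * (u x - u y)) •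
      (site x (rZ n) * site y (rM n) - site x (rM n) * site y (rZ n))) := by
    unfold hamR
    rw [cm_neg_left, cm_smul_left, cm_sum_left]
    congr 2
    apply Finset.sum_congr rfl
    intro x _
    rw [cm_sum_left]
    apply Finset.sum_congr rfl
    intro y _
    by_cases hxy : x = y
    · subst hxy; rw [hJ0]; simp [cm_zero_left]
    · rw [cm_smul_left, lie_dot_modeM n u hxy, smul_smul]
  rw [cm_sub_left, cm_smul_left, lie_mag_modeM, smul_neg, sub_neg_eq_add, cm_add_right, cm_smul_right, e1, cm_neg_right,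
    cm_smul_right, cm_sum_right, ← smul_neg, ← Finset.sum_neg_distrib]
  congr 2
  apply Finset.sum_congr rfl
  intro x _
  rw [cm_sum_right, ← Finset.sum_neg_distrib]
  apply Finset.sum_congr rfl
  intro y _
  by_cases hxy : x = y
  · subst hxy; rw [hJ0]; simp [cm_zero_right]
  · rw [cm_smul_right, lie_modeP_W n u hxy, ← smul_neg]
    congr 1
    abel

end Vale.Agent.P361
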