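import Mathlib

/-!
The three-dimensional spin-`S` quantum Heisenberg ferromagnet (with `S = n / 2`) on the boxes
`{-N, ..., N}^3` with free boundary conditions, its pressure and its spontaneous magnetization.
-/

namespace Vale.Agent.P361

open Matrix

/-- The spin matrix `S^3` of spin `S = n / 2`, in the basis `k = 0, ..., n` with `S^3 = S - k`. -/
noncomputable def spin3 (n : ℕ) : Matrix (Fin (n + 1)) (Fin (n + 1)) ℂ :=
  Matrix.diagonal fun k => (n : ℂ) / 2 - ((k : ℕ) : ℂ)

/-- The raising matrix `S^+ = S^1 + i S^2` of spin `S = n / 2`: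
`S^+ |k⟩ = √(k (n + 1 - k)) |k - 1⟩`. -/
noncomputable def spinUp (n : ℕ) : Matrix (Fin (n + 1)) (Fin (n + 1)) ℂ :=
  Matrix.of fun i j =>
    if (i : ℕ) + 1 = (j : ℕ) then
      ((Real.sqrt (((j : ℕ) : ℝ) * ((n : ℝ) + 1 - ((j : ℕ) : ℝ))) : ℝ) : ℂ)
    else 0

/-- The spin matrix `S^1`. -/
noncomputable def spin1 (n : ℕ) : Matrix (Fin (n + 1)) (Fin (n + 1)) ℂ :=
  (1 / 2 : ℂ) • (spinUp n + (spinUp n)ᴴ)

/-- The spin matrix `S^2`. -/
noncomputable def spin2 (n : ℕ) : Matrix (Fin (n + 1)) (Fin (n + 1)) ℂ :=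
  (1 / (2 * Complex.I) : ℂ) • (spinUp n - (spinUp n)ᴴ)

/-- `site x A` is the one-site matrix `A` acting on the tensor factor of the site `x`; operators
on `⨂_{x ∈ Λ} R^d` are matrices indexed by the configurations `Λ → d`. -/
def site {Λ d R : Type*} [Fintype Λ] [DecidableEq Λ] [Fintype d] [DecidableEq d] [Zero R]
    (x : Λ) (A : Matrix d d R) : Matrix (Λ → d) (Λ → d) R :=
  Matrix.of fun σ τ => if ∀ y, y ≠ x → σ y = τ y then A (σ x) (τ x) else 0

/-- `S_x · S_y = ∑_a S^a_x S^a_y`. -/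
noncomputable def spinDot {Λ : Type*} [Fintype Λ] [DecidableEq Λ] (n : ℕ) (x y : Λ) :
    Matrix (Λ → Fin (n + 1)) (Λ → Fin (n + 1)) ℂ :=
  site x (spin1 n) * site y (spin1 n) + site x (spin2 n) * site y (spin2 n) +
    site x (spin3 n) * site y (spin3 n)

/-- The box `Λ_N = {-N, ..., N}^3`. -/
noncomputable def box (N : ℕ) : Finset (Fin 3 → ℤ) :=
  Fintype.piFinset fun _ => Finset.Icc (-(N : ℤ)) (N : ℤ)

/-- Nearest neighbours of `ℤ^3`: `|x - y|_1 = 1`. -/
def nn (x y : Fin 3 → ℤ) : Prop := ∑ i, |x i - y i| = 1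

instance (x y : Fin 3 → ℤ) : Decidable (nn x y) := by unfold nn; infer_instance

section finite
variable {Λ : Type*} [Fintype Λ] [DecidableEq Λ]

/-- The Hamiltonian `-∑_{⟨x y⟩} S_x · S_y` on a finite set `Λ` of sites with adjacency relation
`adj`; the sum over ordered pairs carries a factor `1 / 2`, so each edge is counted once. -/
noncomputable def ham (n : ℕ) (adj : Λ → Λ → Prop) [DecidableRel adj] :
    Matrix (Λ → Fin (n + 1)) (Λ → Fin (n + 1)) ℂ :=
  -((1 / 2 : ℂ) • ∑ x : Λ, ∑ y : Λ, if adj x y then spinDot n x y else 0)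

/-- The total magnetization `∑_x S^3_x`. -/
noncomputable def mag (n : ℕ) : Matrix (Λ → Fin (n + 1)) (Λ → Fin (n + 1)) ℂ :=
  ∑ x : Λ, site x (spin3 n)

/-- The partition function `Tr exp (-β (H - h M))`. -/
noncomputable def partFn (n : ℕ) (adj : Λ → Λ → Prop) [DecidableRel adj] (β h : ℝ) : ℝ :=
  (Matrix.trace (NormedSpace.exp (-(β : ℂ) • (ham n adj - (h : ℂ) • mag n)))).re

end finite

/-- The finite-volume pressure `(β |Λ_N|)⁻¹ log Tr exp (-β (H_N - h M_N))` on the box `Λ_N` with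
nearest-neighbour interaction and free boundary conditions. -/
noncomputable def finPressure (n N : ℕ) (β h : ℝ) : ℝ :=
  1 / (β * ((box N).card : ℝ)) * Real.log (partFn (Λ := box N) n (fun x y => nn x y) β h)

/-- The pressure `p_β(h)`, the infinite-volume limit of `finPressure`. -/
noncomputable def pressure (n : ℕ) (β h : ℝ) : ℝ :=
  Filter.atTop.limUnder fun N : ℕ => finPressure n N β h

/-- The spontaneous magnetization: the right derivative of `h ↦ p_β(h)` at `h = 0`. -/
noncomputable def spontMag (n : ℕ) (β : ℝ) : ℝ :=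
  derivWithin (pressure n β) (Set.Ioi 0) 0

end Vale.Agent.P361
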