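import Vale.Agent.P361.Limit

/-!
The infinite-volume magnetization inequality and its low-temperature consequence.
-/

set_option linter.unusedSectionVars false

namespace Vale.Agent.P361

open Finset Filter Topology

/-- Time parameter of the `ν`-th term. -/
noncomputable def tau (n : ℕ) (β m : ℝ) (ν : ℕ) : ℝ := ((ν : ℝ) + 1) * β * (n : ℝ) ^ 2 / (2 * m)

lemma tau_nonneg (n : ℕ) (β m : ℝ) (hβ : 0 ≤ β) (hm : 0 < m) (ν : ℕ) : 0 ≤ tau n β m ν := by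
  unfold tau; positivity

/-- Factorization of the mode sum. -/
lemma mode_sum_eq (n N : ℕ) (β m h : ℝ) (ν : ℕ) :
    ∑ k ∈ box N, Real.exp (-((ν : ℝ) + 1) * (β * (modeE n N k / (2 * m) + h))) =
      Real.exp (-((ν : ℝ) + 1) * (β * h)) *
        (∑ j ∈ Finset.Icc (-(N : ℤ)) (N : ℤ),
          Real.exp (-(tau n β m ν * (1 - Real.cos (ang N j))))) ^ 3 := by
  have h1 : ∀ k : Fin 3 → ℤ, Real.exp (-((ν : ℝ) + 1) * (β * (modeE n N k / (2 * m) + h))) =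
      Real.exp (-((ν : ℝ) + 1) * (β * h)) *
        ∏ i, Real.exp (-(tau n β m ν * (1 - Real.cos (ang N (k i))))) := by
    intro k
    rw [← Real.exp_sum, ← Real.exp_add]
    congr 1
    unfold modeE tau
    rw [Finset.sum_neg_distrib, ← Finset.mul_sum]
    ring
  simp only [h1]
  rw [← Finset.mul_sum]
  congr 1
  unfold box
  rw [← Finset.prod_univ_sum (fun _ : Fin 3 => Finset.Icc (-(N : ℤ)) (N : ℤ))
    (fun _ j => Real.exp (-(tau n β m ν * (1 - Real.cos (ang N j)))))]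
  simp

lemma step_A (n : ℕ) (β h : ℝ) (hβ : 0 ≤ β) (hh : 0 ≤ h) (N K : ℕ) (m' : ℝ) (hm' : 0 < m')
    (hm : m' ≤ mdens n β h N) :
    2 * m' / ((box N).card : ℝ) * ∑ k ∈ box N, ∑ ν ∈ Finset.range K,
      Real.exp (-((ν : ℝ) + 1) * (β * (modeE n N k / (2 * m') + h))) ≤
      n * ((n : ℝ) / 2 - m') := by
  have hmpos : 0 < mdens n β h N := lt_of_lt_of_le hm' hm
  have key := box_bound n β h hβ hh N K hmpos
  set m := mdens n β h N
  have hc := box_card_pos N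
  have h1 : ∑ k ∈ box N, ∑ ν ∈ Finset.range K,
      Real.exp (-((ν : ℝ) + 1) * (β * (modeE n N k / (2 * m') + h))) ≤
      ∑ k ∈ box N, ∑ ν ∈ Finset.range K,
      Real.exp (-((ν : ℝ) + 1) * (β * (modeE n N k / (2 * m) + h))) := by
    apply Finset.sum_le_sum
    intro k _
    apply Finset.sum_le_sum
    intro ν _
    apply Real.exp_le_exp.mpr
    have h2 : modeE n N k / (2 * m) ≤ modeE n N k / (2 * m') := by
      apply div_le_div_of_nonneg_left (modeE_nonneg n N k) (by positivity)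
      linarith
    have h3 : 0 ≤ (((ν : ℝ) + 1)) * β := by positivity
    have := mul_le_mul_of_nonneg_left h2 h3
    linarith
  have h4 : 2 * m' / ((box N).card : ℝ) ≤ 2 * m / ((box N).card : ℝ) := by
    apply div_le_div_of_nonneg_right _ hc.le
    linarith
  have h5 : 0 ≤ ∑ k ∈ box N, ∑ ν ∈ Finset.range K,
      Real.exp (-((ν : ℝ) + 1) * (β * (modeE n N k / (2 * m') + h))) := by
    apply Finset.sum_nonneg; intro k _
    apply Finset.sum_nonneg; intro ν _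
    exact (Real.exp_pos _).le
  have h6 : 0 ≤ 2 * m / ((box N).card : ℝ) := by positivity
  calc _ ≤ 2 * m / ((box N).card : ℝ) * ∑ k ∈ box N, ∑ ν ∈ Finset.range K,
      Real.exp (-((ν : ℝ) + 1) * (β * (modeE n N k / (2 * m) + h))) :=
        mul_le_mul h4 h1 h5 h6
    _ ≤ _ := key
    _ ≤ _ := by
      apply mul_le_mul_of_nonneg_left _ (Nat.cast_nonneg n)
      linarith

lemma step_B (n : ℕ) (β h : ℝ) (hβ : 0 ≤ β) (hh : 0 ≤ h) (N K : ℕ) (m' : ℝ) (hm' : 0 < m')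
    (hm : m' ≤ mdens n β h N) :
    2 * m' * ∑ ν ∈ Finset.range K, Real.exp (-((ν : ℝ) + 1) * (β * h)) *
      (Jt (tau n β m' ν) - 1 / ((2 * N + 1 : ℕ) : ℝ)) ^ 3 ≤ n * ((n : ℝ) / 2 - m') := by
  refine le_trans ?_ (step_A n β h hβ hh N K m' hm' hm)
  rw [Finset.sum_comm]
  simp only [mode_sum_eq]
  rw [card_box]
  set L : ℝ := ((2 * N + 1 : ℕ) : ℝ) with hL
  have hLpos : 0 < L := by rw [hL]; positivity
  have e1 : 2 * m' / L ^ 3 * ∑ ν ∈ Finset.range K, Real.exp (-((ν : ℝ) + 1) * (β * h)) *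
        (∑ j ∈ Finset.Icc (-(N : ℤ)) (N : ℤ),
          Real.exp (-(tau n β m' ν * (1 - Real.cos (ang N j))))) ^ 3 =
      2 * m' * ∑ ν ∈ Finset.range K, Real.exp (-((ν : ℝ) + 1) * (β * h)) *
        ((1 / L) * ∑ j ∈ Finset.Icc (-(N : ℤ)) (N : ℤ),
          Real.exp (-(tau n β m' ν * (1 - Real.cos (ang N j))))) ^ 3 := by
    rw [Finset.mul_sum, Finset.mul_sum]
    apply Finset.sum_congr rfl
    intro ν _
    rw [mul_pow]
    field_simp
  rw [e1]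
  apply mul_le_mul_of_nonneg_left _ (by positivity)
  apply Finset.sum_le_sum
  intro ν _
  apply mul_le_mul_of_nonneg_left _ (Real.exp_pos _).le
  refine (Odd.pow_le_pow (by decide : Odd 3)).mpr ?_
  exact oneD_lower (tau n β m' ν) (tau_nonneg n β m' hβ hm' ν) N

/-- Infinite volume, positive field. -/
lemma step_C (n : ℕ) (β h : ℝ) (hβ : 0 < β) (hh : 0 < h) (K : ℕ) (m' : ℝ) (hm' : 0 < m')
    (hm : m' < spontMag n β) :
    2 * m' * ∑ ν ∈ Finset.range K, Real.exp (-((ν : ℝ) + 1) * (β * h)) *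
      (Jt (tau n β m' ν)) ^ 3 ≤ n * ((n : ℝ) / 2 - m') := by
  have hlim : Tendsto (fun N : ℕ => (finPressure n N β h - finPressure n N β 0) / h) atTop
      (𝓝 ((pressure n β h - pressure n β 0) / h)) :=
    ((pressure_tendsto n β h hβ).sub (pressure_tendsto n β 0 hβ)).div_const h
  have hgt : m' < (pressure n β h - pressure n β 0) / h :=
    lt_of_lt_of_le hm (spontMag_le_slope n β hβ h hh)
  have hev : ∀ᶠ N : ℕ in atTop, m' ≤ mdens n β h N := by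
    filter_upwards [hlim.eventually (lt_mem_nhds hgt)] with N hN
    exact le_trans hN.le (mdens_ge n β h hβ hh N)
  have hB : ∀ᶠ N : ℕ in atTop, 2 * m' * ∑ ν ∈ Finset.range K,
      Real.exp (-((ν : ℝ) + 1) * (β * h)) *
      (Jt (tau n β m' ν) - 1 / ((2 * N + 1 : ℕ) : ℝ)) ^ 3 ≤ n * ((n : ℝ) / 2 - m') := by
    filter_upwards [hev] with N hN
    exact step_B n β h hβ.le hh.le N K m' hm' hN
  have h0 : Tendsto (fun N : ℕ => 1 / ((2 * N + 1 : ℕ) : ℝ)) atTop (𝓝 0) := by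
    have h2 : Tendsto (fun N : ℕ => ((2 * N + 1 : ℕ) : ℝ)) atTop atTop := by
      apply tendsto_natCast_atTop_atTop.comp
      apply tendsto_atTop_mono (fun N => (by omega : N ≤ 2 * N + 1)) tendsto_id
    exact tendsto_const_nhds.div_atTop h2
  have hL : Tendsto (fun N : ℕ => 2 * m' * ∑ ν ∈ Finset.range K,
      Real.exp (-((ν : ℝ) + 1) * (β * h)) *
      (Jt (tau n β m' ν) - 1 / ((2 * N + 1 : ℕ) : ℝ)) ^ 3) atTop
      (𝓝 (2 * m' * ∑ ν ∈ Finset.range K, Real.exp (-((ν : ℝ) + 1) * (β * h)) *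
      (Jt (tau n β m' ν) - 0) ^ 3)) := by
    apply Tendsto.const_mul
    apply tendsto_finsetSum
    intro ν _
    apply Tendsto.const_mul
    exact (tendsto_const_nhds.sub h0).pow 3
  simp only [sub_zero] at hL
  exact le_of_tendsto hL hB

/-- Infinite volume, zero field. -/
lemma step_D (n : ℕ) (β : ℝ) (hβ : 0 < β) (K : ℕ) (m' : ℝ) (hm' : 0 < m')
    (hm : m' < spontMag n β) :
    2 * m' * ∑ ν ∈ Finset.range K, (Jt (tau n β m' ν)) ^ 3 ≤ n * ((n : ℝ) / 2 - m') := by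
  have hL : Tendsto (fun h : ℝ => 2 * m' * ∑ ν ∈ Finset.range K,
      Real.exp (-((ν : ℝ) + 1) * (β * h)) * (Jt (tau n β m' ν)) ^ 3) (𝓝[>] 0)
      (𝓝 (2 * m' * ∑ ν ∈ Finset.range K,
      Real.exp (-((ν : ℝ) + 1) * (β * 0)) * (Jt (tau n β m' ν)) ^ 3)) := by
    apply Tendsto.mono_left _ nhdsWithin_le_nhds
    apply Continuous.tendsto
    fun_prop
  simp only [mul_zero, Real.exp_zero, one_mul] at hL
  refine le_of_tendsto hL ?_
  filter_upwards [self_mem_nhdsWithin] with h hh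
  exact step_C n β h hβ hh K m' hm' hm

/-- Scaling limit of one term. -/
lemma term_limit (n : ℕ) (hn : 1 ≤ n) (c : ℝ) (ν : ℕ) :
    Tendsto (fun β : ℝ => β ^ (3 / 2 : ℝ) *
      (Jt (tau n β ((n : ℝ) / 2 - c * β ^ (-(3 / 2) : ℝ)) ν)) ^ 3) atTop
      (𝓝 ((2 * Real.pi * n) ^ (-(3 / 2) : ℝ) * ((ν : ℝ) + 1) ^ (-(3 / 2) : ℝ))) := by
  have hnr : (1 : ℝ) ≤ n := by exact_mod_cast hn
  have hβ0 : Tendsto (fun β : ℝ => β ^ (-(3 / 2) : ℝ)) atTop (𝓝 0) :=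
    tendsto_rpow_neg_atTop (by norm_num)
  have hm : Tendsto (fun β : ℝ => (n : ℝ) / 2 - c * β ^ (-(3 / 2) : ℝ)) atTop (𝓝 ((n : ℝ) / 2)) := by
    have := tendsto_const_nhds (x := (n : ℝ) / 2) |>.sub (hβ0.const_mul c)
    simpa using this
  -- ratio tau / β
  have hr : Tendsto (fun β : ℝ => ((ν : ℝ) + 1) * (n : ℝ) ^ 2 /
      (2 * ((n : ℝ) / 2 - c * β ^ (-(3 / 2) : ℝ)))) atTop (𝓝 (((ν : ℝ) + 1) * n)) := by
    have h1 : Tendsto (fun β : ℝ => 2 * ((n : ℝ) / 2 - c * β ^ (-(3 / 2) : ℝ))) atTop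
        (𝓝 (n : ℝ)) := by
      have := hm.const_mul 2
      have e : 2 * ((n : ℝ) / 2) = n := by ring
      rwa [e] at this
    have h2 := (tendsto_const_nhds (x := ((ν : ℝ) + 1) * (n : ℝ) ^ 2)).div h1 (by positivity)
    have e : ((ν : ℝ) + 1) * (n : ℝ) ^ 2 / n = ((ν : ℝ) + 1) * n := by
      field_simp
    rw [e] at h2
    exact h2
  have hrpos : (0 : ℝ) < ((ν : ℝ) + 1) * n := by positivity
  have htau : ∀ β : ℝ, tau n β ((n : ℝ) / 2 - c * β ^ (-(3 / 2) : ℝ)) ν =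
      β * (((ν : ℝ) + 1) * (n : ℝ) ^ 2 / (2 * ((n : ℝ) / 2 - c * β ^ (-(3 / 2) : ℝ)))) := by
    intro β; unfold tau; ring
  have htauinf : Tendsto (fun β : ℝ => tau n β ((n : ℝ) / 2 - c * β ^ (-(3 / 2) : ℝ)) ν)
      atTop atTop := by
    simp only [htau]
    exact tendsto_id.atTop_mul_pos hrpos hr
  have h3 : Tendsto (fun β : ℝ => (Real.sqrt (tau n β ((n : ℝ) / 2 - c * β ^ (-(3 / 2) : ℝ)) ν) *
      Jt (tau n β ((n : ℝ) / 2 - c * β ^ (-(3 / 2) : ℝ)) ν)) ^ 3) atTop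
      (𝓝 ((1 / Real.sqrt (2 * Real.pi)) ^ 3)) :=
    (Jt_asymp.comp htauinf).pow 3
  have h4 : Tendsto (fun β : ℝ => (((ν : ℝ) + 1) * (n : ℝ) ^ 2 /
      (2 * ((n : ℝ) / 2 - c * β ^ (-(3 / 2) : ℝ)))) ^ (-(3 / 2) : ℝ)) atTop
      (𝓝 ((((ν : ℝ) + 1) * n) ^ (-(3 / 2) : ℝ))) :=
    hr.rpow_const (Or.inl hrpos.ne')
  have h5 := h4.mul h3
  have e5 : (((ν : ℝ) + 1) * n) ^ (-(3 / 2) : ℝ) * (1 / Real.sqrt (2 * Real.pi)) ^ 3 =
      (2 * Real.pi * n) ^ (-(3 / 2) : ℝ) * ((ν : ℝ) + 1) ^ (-(3 / 2) : ℝ) := by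
    have hpi := Real.pi_pos
    have a1 : (1 / Real.sqrt (2 * Real.pi)) ^ 3 = (2 * Real.pi) ^ (-(3 / 2) : ℝ) := by
      rw [Real.sqrt_eq_rpow, one_div, ← Real.rpow_neg (by positivity), ← Real.rpow_natCast,
        ← Real.rpow_mul (by positivity)]
      norm_num
    rw [a1, Real.mul_rpow (by positivity) (by positivity),
      Real.mul_rpow (by positivity : (0 : ℝ) ≤ 2 * Real.pi) (by positivity)]
    ring
  rw [e5] at h5
  refine h5.congr' ?_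
  have hrev := hr.eventually (lt_mem_nhds hrpos)
  filter_upwards [hrev, eventually_gt_atTop (0 : ℝ)] with β hb hβpos
  rw [htau β]
  set r := ((ν : ℝ) + 1) * (n : ℝ) ^ 2 / (2 * ((n : ℝ) / 2 - c * β ^ (-(3 / 2) : ℝ))) with hrdef
  have a2 : Real.sqrt (β * r) ^ 3 = β ^ (3 / 2 : ℝ) * r ^ (3 / 2 : ℝ) := by
    rw [Real.sqrt_eq_rpow, ← Real.rpow_natCast, ← Real.rpow_mul (by positivity),
      ← Real.mul_rpow hβpos.le hb.le]
    norm_num
  rw [mul_pow, a2]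
  have a3 : r ^ (-(3 / 2) : ℝ) * r ^ (3 / 2 : ℝ) = 1 := by
    rw [← Real.rpow_add hb]; norm_num
  calc r ^ (-(3 / 2) : ℝ) * (β ^ (3 / 2 : ℝ) * r ^ (3 / 2 : ℝ) * Jt (β * r) ^ 3)
      = (r ^ (-(3 / 2) : ℝ) * r ^ (3 / 2 : ℝ)) * (β ^ (3 / 2 : ℝ) * Jt (β * r) ^ 3) := by ring
    _ = _ := by rw [a3, one_mul]

/-- The zeta value as a series. -/
lemma zeta_series : (riemannZeta (3 / 2)).re = ∑' ν : ℕ, ((ν : ℝ) + 1) ^ (-(3 / 2) : ℝ) := by
  have h1 : riemannZeta (3 / 2) = ∑' ν : ℕ, 1 / ((ν : ℂ) + 1) ^ (3 / 2 : ℂ) :=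
    zeta_eq_tsum_one_div_nat_add_one_cpow (by norm_num)
  have h2 : ∀ ν : ℕ, 1 / ((ν : ℂ) + 1) ^ (3 / 2 : ℂ) =
      ((((ν : ℝ) + 1) ^ (-(3 / 2) : ℝ) : ℝ) : ℂ) := by
    intro ν
    rw [Real.rpow_neg (by positivity), Complex.ofReal_inv, Complex.ofReal_cpow (by positivity)]
    push_cast
    rw [one_div]
  simp only [h2] at h1
  rw [h1, ← Complex.ofReal_tsum, Complex.ofReal_re]

lemma zeta_summable : Summable fun ν : ℕ => ((ν : ℝ) + 1) ^ (-(3 / 2) : ℝ) := by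
  have h := (Real.summable_nat_rpow (p := -(3 / 2))).mpr (by norm_num)
  have h2 := (summable_nat_add_iff (f := fun k : ℕ => (k : ℝ) ^ (-(3 / 2) : ℝ)) 1).mpr h
  simpa using h2

lemma coeff_eq (n : ℕ) (hn : 1 ≤ n) :
    (riemannZeta (3 / 2)).re / (8 * Real.pi ^ (3 / 2 : ℝ) * ((n : ℝ) / 2) ^ (3 / 2 : ℝ)) =
      (2 * Real.pi * n) ^ (-(3 / 2) : ℝ) * (riemannZeta (3 / 2)).re := by
  have hnr : (1 : ℝ) ≤ n := by exact_mod_cast hn
  have hpi := Real.pi_pos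
  have e1 : 8 * Real.pi ^ (3 / 2 : ℝ) * ((n : ℝ) / 2) ^ (3 / 2 : ℝ) =
      (2 * Real.pi * n) ^ (3 / 2 : ℝ) := by
    have e2 : 2 * Real.pi * n = 4 * (Real.pi * ((n : ℝ) / 2)) := by ring
    have e3 : (4 : ℝ) ^ (3 / 2 : ℝ) = 8 := by
      have : (4 : ℝ) = 2 ^ (2 : ℝ) := by norm_num
      rw [this, ← Real.rpow_mul (by norm_num)]
      norm_num
    rw [e2, Real.mul_rpow (by norm_num) (by positivity), e3,
      Real.mul_rpow (by positivity) (by positivity)]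
    ring
  rw [e1, Real.rpow_neg (by positivity), div_eq_mul_inv, mul_comm]

/-- The low-temperature bound. -/
theorem bloch_lower (n : ℕ) (hn : 1 ≤ n) (c : ℝ)
    (hc : c < (riemannZeta (3 / 2)).re /
      (8 * Real.pi ^ (3 / 2 : ℝ) * ((n : ℝ) / 2) ^ (3 / 2 : ℝ))) :
    ∀ᶠ β : ℝ in atTop, c < β ^ (3 / 2 : ℝ) * ((n : ℝ) / 2 - spontMag n β) := by
  have hnr : (1 : ℝ) ≤ n := by exact_mod_cast hn
  have hpi := Real.pi_pos
  -- enlarge c a little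
  obtain ⟨c', hcc', hc'⟩ := exists_between hc
  rw [coeff_eq n hn, zeta_series] at hc'
  have hsum := zeta_summable.hasSum.tendsto_sum_nat.const_mul ((2 * Real.pi * n) ^ (-(3 / 2) : ℝ))
  obtain ⟨K, hK⟩ := (hsum.eventually (lt_mem_nhds hc')).exists
  -- limit of the truncated sum along m' = n/2 - c' β^{-3/2}
  have hm : Tendsto (fun β : ℝ => (n : ℝ) / 2 - c' * β ^ (-(3 / 2) : ℝ)) atTop
      (𝓝 ((n : ℝ) / 2)) := by
    have hβ0 : Tendsto (fun β : ℝ => β ^ (-(3 / 2) : ℝ)) atTop (𝓝 0) :=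
      tendsto_rpow_neg_atTop (by norm_num)
    have := tendsto_const_nhds (x := (n : ℝ) / 2) |>.sub (hβ0.const_mul c')
    simpa using this
  have hlim : Tendsto (fun β : ℝ => (2 * ((n : ℝ) / 2 - c' * β ^ (-(3 / 2) : ℝ)) / n) *
      ∑ ν ∈ Finset.range K, β ^ (3 / 2 : ℝ) *
        (Jt (tau n β ((n : ℝ) / 2 - c' * β ^ (-(3 / 2) : ℝ)) ν)) ^ 3) atTop
      (𝓝 (1 * ∑ ν ∈ Finset.range K,
        (2 * Real.pi * n) ^ (-(3 / 2) : ℝ) * ((ν : ℝ) + 1) ^ (-(3 / 2) : ℝ))) := by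
    apply Tendsto.mul
    · have := (hm.const_mul 2).div_const (n : ℝ)
      have e : 2 * ((n : ℝ) / 2) / n = 1 := by field_simp
      rwa [e] at this
    · apply tendsto_finsetSum
      intro ν _
      exact term_limit n hn c' ν
  rw [one_mul, ← Finset.mul_sum] at hlim
  have hev := hlim.eventually (lt_mem_nhds hK)
  have hmpos : ∀ᶠ β : ℝ in atTop, 0 < (n : ℝ) / 2 - c' * β ^ (-(3 / 2) : ℝ) :=
    hm.eventually (lt_mem_nhds (by positivity))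
  filter_upwards [hev, hmpos, eventually_gt_atTop (0 : ℝ)] with β h1 h2 hβ
  by_contra hcon
  push Not at hcon
  set m' := (n : ℝ) / 2 - c' * β ^ (-(3 / 2) : ℝ) with hm'
  have hβp : 0 < β ^ (3 / 2 : ℝ) := Real.rpow_pos_of_pos hβ _
  have hinv : β ^ (-(3 / 2) : ℝ) * β ^ (3 / 2 : ℝ) = 1 := by
    rw [← Real.rpow_add hβ]; norm_num
  have hlt : m' < spontMag n β := by
    have h3 : β ^ (3 / 2 : ℝ) * ((n : ℝ) / 2 - spontMag n β) < c' := lt_of_le_of_lt hcon hcc'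
    have h4 : β ^ (3 / 2 : ℝ) * ((n : ℝ) / 2 - m') = c' := by
      rw [hm']
      calc β ^ (3 / 2 : ℝ) * ((n : ℝ) / 2 - ((n : ℝ) / 2 - c' * β ^ (-(3 / 2) : ℝ)))
          = c' * (β ^ (-(3 / 2) : ℝ) * β ^ (3 / 2 : ℝ)) := by ring
        _ = c' := by rw [hinv, mul_one]
    rw [← h4] at h3
    have h5 := lt_of_mul_lt_mul_left h3 hβp.le
    linarith
  have hD := step_D n β hβ K m' h2 hlt
  have hfin : (2 * m' / n) * ∑ ν ∈ Finset.range K, β ^ (3 / 2 : ℝ) * (Jt (tau n β m' ν)) ^ 3 ≤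
      c' := by
    have e1 : (2 * m' / n) * ∑ ν ∈ Finset.range K, β ^ (3 / 2 : ℝ) * (Jt (tau n β m' ν)) ^ 3 =
        (β ^ (3 / 2 : ℝ) / n) * (2 * m' * ∑ ν ∈ Finset.range K, (Jt (tau n β m' ν)) ^ 3) := by
      rw [← Finset.mul_sum]
      ring
    rw [e1]
    calc (β ^ (3 / 2 : ℝ) / n) * (2 * m' * ∑ ν ∈ Finset.range K, (Jt (tau n β m' ν)) ^ 3)
        ≤ (β ^ (3 / 2 : ℝ) / n) * (n * ((n : ℝ) / 2 - m')) :=
          mul_le_mul_of_nonneg_left hD (by positivity)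
      _ = β ^ (3 / 2 : ℝ) * (c' * β ^ (-(3 / 2) : ℝ)) := by
          rw [hm']; field_simp; ring
      _ = c' * (β ^ (-(3 / 2) : ℝ) * β ^ (3 / 2 : ℝ)) := by ring
      _ = c' := by rw [hinv, mul_one]
  linarith

end Vale.Agent.P361
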