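import Vale.Agent.P361.Core

/-!
Positivity facts for the Gibbs weight and the finite-volume magnetization bound.
-/

set_option linter.unusedSectionVars false

namespace Vale.Agent.P361

open Matrix Finset

section pos
variable {ι : Type*} [Fintype ι] [DecidableEq ι]

lemma trace_sq_nonneg (X : Matrix ι ι ℝ) : 0 ≤ trace (X * Xᵀ) := by
  simp only [Matrix.trace, Matrix.diag_apply, Matrix.mul_apply, Matrix.transpose_apply]
  exact Finset.sum_nonneg fun i _ => Finset.sum_nonneg fun j _ => mul_self_nonneg _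

lemma exp_transpose_of_symm (K : Matrix ι ι ℝ) (hK : Kᵀ = K) (β : ℝ) :
    (NormedSpace.exp (-β • K))ᵀ = NormedSpace.exp (-β • K) := by
  rw [← Matrix.exp_transpose, Matrix.transpose_smul, hK]

lemma exp_half (K : Matrix ι ι ℝ) (β : ℝ) :
    NormedSpace.exp (-β • K) = NormedSpace.exp (-(β / 2) • K) * NormedSpace.exp (-(β / 2) • K) := by
  rw [← Matrix.exp_add_of_commute _ _ (Commute.refl _), ← add_smul]
  congr 2
  ring

lemma gibbs_pos (K C : Matrix ι ι ℝ) (hK : Kᵀ = K) (β : ℝ) :
    0 ≤ trace (NormedSpace.exp (-β • K) * (Cᵀ * C)) := by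
  set R := NormedSpace.exp (-(β / 2) • K) with hR
  have hRT : Rᵀ = R := exp_transpose_of_symm K hK (β / 2)
  have h : trace (NormedSpace.exp (-β • K) * (Cᵀ * C)) = trace ((C * R) * (C * R)ᵀ) := by
    rw [exp_half, Matrix.transpose_mul, hRT]
    calc trace (R * R * (Cᵀ * C)) = trace ((R * R * Cᵀ) * C) := by simp only [Matrix.mul_assoc]
      _ = trace (C * (R * R * Cᵀ)) := Matrix.trace_mul_comm _ _
      _ = trace (C * R * (R * Cᵀ)) := by simp only [Matrix.mul_assoc]
  rw [h]
  exact trace_sq_nonneg _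

lemma gibbs_transpose (K X : Matrix ι ι ℝ) (hK : Kᵀ = K) (β : ℝ) :
    trace (NormedSpace.exp (-β • K) * Xᵀ) = trace (NormedSpace.exp (-β • K) * X) := by
  rw [← Matrix.trace_transpose, Matrix.transpose_mul, Matrix.transpose_transpose,
    exp_transpose_of_symm K hK β, Matrix.trace_mul_comm]

lemma gibbs_Z_pos [Nonempty ι] (K : Matrix ι ι ℝ) (hK : Kᵀ = K) (β : ℝ) :
    0 < trace (NormedSpace.exp (-β • K)) := by
  have h0 : 0 ≤ trace (NormedSpace.exp (-β • K)) := by
    have := gibbs_pos K 1 hK β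
    simpa using this
  rcases h0.lt_or_eq with h | h
  · exact h
  · exfalso
    set R := NormedSpace.exp (-(β / 2) • K) with hR
    have hRT : Rᵀ = R := exp_transpose_of_symm K hK (β / 2)
    have h1 : trace (R * Rᵀ) = 0 := by
      rw [hRT, ← exp_half, ← h]
    have h2 : ∀ i j, R i j = 0 := by
      intro i j
      simp only [Matrix.trace, Matrix.diag_apply, Matrix.mul_apply, Matrix.transpose_apply] at h1
      have h1' := (Finset.sum_eq_zero_iff_of_nonneg
        (fun i _ => Finset.sum_nonneg fun j _ => mul_self_nonneg (R i j))).mp h1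
      have h3 := h1' i (Finset.mem_univ _)
      have h3' := (Finset.sum_eq_zero_iff_of_nonneg
        (fun j _ => mul_self_nonneg (R i j))).mp h3
      exact mul_self_eq_zero.mp (h3' j (Finset.mem_univ _))
    have h3 : R = 0 := by ext i j; exact h2 i j
    have h4 : IsUnit R := Matrix.isUnit_exp _
    rw [h3] at h4
    exact not_isUnit_zero h4

end pos

variable {Λ : Type*} [Fintype Λ] [DecidableEq Λ]

lemma dotR_transpose (n : ℕ) {x y : Λ} (hxy : x ≠ y) : (dotR n x y)ᵀ = dotR n x y := by
  unfold dotR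
  simp only [Matrix.transpose_add, Matrix.transpose_smul, Matrix.transpose_mul, site_transpose,
    rZ_transpose, rP_transpose, rM_transpose]
  rw [site_comm hxy.symm, site_comm hxy.symm, site_comm hxy.symm, add_comm (site x (rM n) * _)]

lemma hamR_transpose (n : ℕ) (J : Λ → Λ → ℝ) (hJ0 : ∀ x, J x x = 0) :
    (hamR n J)ᵀ = hamR n J := by
  unfold hamR
  rw [Matrix.transpose_neg, Matrix.transpose_smul, Matrix.transpose_sum]
  congr 2
  apply Finset.sum_congr rfl
  intro x _
  rw [Matrix.transpose_sum]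
  apply Finset.sum_congr rfl
  intro y _
  rw [Matrix.transpose_smul]
  by_cases hxy : x = y
  · subst hxy; rw [hJ0]; simp
  · rw [dotR_transpose n hxy]

lemma magR_transpose (n : ℕ) : (magR (Λ := Λ) n)ᵀ = magR n := by
  unfold magR
  rw [Matrix.transpose_sum]
  apply Finset.sum_congr rfl
  intro x _
  rw [site_transpose, rZ_transpose]

/-- The Hamiltonian in a field. -/
noncomputable def fieldR (n : ℕ) (J : Λ → Λ → ℝ) (h : ℝ) :
    Matrix (Λ → Fin (n + 1)) (Λ → Fin (n + 1)) ℝ := hamR n J - h • magR n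

lemma fieldR_transpose (n : ℕ) (J : Λ → Λ → ℝ) (hJ0 : ∀ x, J x x = 0) (h : ℝ) :
    (fieldR n J h)ᵀ = fieldR n J h := by
  unfold fieldR
  rw [Matrix.transpose_sub, Matrix.transpose_smul, hamR_transpose n J hJ0, magR_transpose]

/-- Unnormalized Gibbs expectation. -/
noncomputable def ev (n : ℕ) (J : Λ → Λ → ℝ) (h β : ℝ)
    (X : Matrix (Λ → Fin (n + 1)) (Λ → Fin (n + 1)) ℝ) : ℝ :=
  trace (NormedSpace.exp (-β • fieldR n J h) * X)

lemma ev_add (n : ℕ) (J : Λ → Λ → ℝ) (h β : ℝ) (X Y) :
    ev n J h β (X + Y) = ev n J h β X + ev n J h β Y := by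
  unfold ev; rw [mul_add, Matrix.trace_add]

lemma ev_sub (n : ℕ) (J : Λ → Λ → ℝ) (h β : ℝ) (X Y) :
    ev n J h β (X - Y) = ev n J h β X - ev n J h β Y := by
  unfold ev; rw [mul_sub, Matrix.trace_sub]

lemma ev_smul (n : ℕ) (J : Λ → Λ → ℝ) (h β c : ℝ) (X) :
    ev n J h β (c • X) = c * ev n J h β X := by
  unfold ev; rw [mul_smul_comm, Matrix.trace_smul, smul_eq_mul]

lemma ev_sum (n : ℕ) (J : Λ → Λ → ℝ) (h β : ℝ) {κ : Type*} (s : Finset κ)
    (f : κ → Matrix (Λ → Fin (n + 1)) (Λ → Fin (n + 1)) ℝ) :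
    ev n J h β (∑ k ∈ s, f k) = ∑ k ∈ s, ev n J h β (f k) := by
  unfold ev; rw [Finset.mul_sum, Matrix.trace_sum]

/-- Upper bound for the exchange expectation. -/
lemma exchange_le (n : ℕ) (J : Λ → Λ → ℝ) (hJ0 : ∀ x, J x x = 0) (h β : ℝ) {x y : Λ}
    (hxy : x ≠ y) :
    ev n J h β (dotR n x y + site x (rZ n) * site y (rZ n)) ≤
      ((n : ℝ) ^ 2 / 2) * ev n J h β 1 := by
  have hT := fieldR_transpose n J hJ0 h
  set c : ℝ := (n : ℝ) / 2 with hc
  have hAA : ∀ z : Λ, site z (rA n) * site z (rA n) = c • 1 + site z (rZ n) := by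
    intro z; rw [site_mul, rA_mul_rA, site_add, site_smul, site_one]
  have hBB : ∀ z : Λ, site z ((rB n)ᵀ) * site z (rB n) = c • 1 - site z (rZ n) := by
    intro z; rw [site_mul, rB_mul_rB, site_sub, site_smul, site_one]
  have hAB : ∀ z : Λ, site z (rA n) * site z (rB n) = site z (rP n) := by
    intro z; rw [site_mul, ← rP_eq]
  have hBA : ∀ z : Λ, site z ((rB n)ᵀ) * site z (rA n) = site z (rM n) := by
    intro z; rw [site_mul, ← rM_eq]
  have c1 := gibbs_pos (fieldR n J h) (site x (rA n) * site y (rB n)) hT β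
  have c2 := gibbs_pos (fieldR n J h) (site x (rB n) * site y (rA n)) hT β
  have c3 := gibbs_pos (fieldR n J h)
    (site x (rA n) * site y (rB n) - site x (rB n) * site y (rA n)) hT β
  -- products
  have mulxy : ∀ A B C D : Matrix (Fin (n + 1)) (Fin (n + 1)) ℝ,
      (site y A * site x B) * (site x C * site y D) = (site x B * site x C) * (site y A * site y D) := by
    intro A B C D
    rw [site_comm hxy.symm A B]
    calc site x B * site y A * (site x C * site y D)
        = site x B * (site y A * site x C) * site y D := by simp only [Matrix.mul_assoc]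
      _ = site x B * (site x C * site y A) * site y D := by rw [site_comm hxy.symm A C]
      _ = _ := by simp only [Matrix.mul_assoc]
  have e1 : (site x (rA n) * site y (rB n))ᵀ * (site x (rA n) * site y (rB n)) =
      (c • 1 + site x (rZ n)) * (c • 1 - site y (rZ n)) := by
    rw [Matrix.transpose_mul, site_transpose, site_transpose, rA_transpose, mulxy, hAA, hBB]
  have e2 : (site x (rB n) * site y (rA n))ᵀ * (site x (rB n) * site y (rA n)) =
      (c • 1 - site x (rZ n)) * (c • 1 + site y (rZ n)) := by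
    rw [Matrix.transpose_mul, site_transpose, site_transpose, rA_transpose, mulxy, hAA, hBB]
  have e3 : (site x (rA n) * site y (rB n) - site x (rB n) * site y (rA n))ᵀ *
      (site x (rA n) * site y (rB n) - site x (rB n) * site y (rA n)) =
      (c • 1 + site x (rZ n)) * (c • 1 - site y (rZ n)) +
      (c • 1 - site x (rZ n)) * (c • 1 + site y (rZ n)) -
      (site x (rP n) * site y (rM n) + site x (rM n) * site y (rP n)) := by
    rw [Matrix.transpose_sub, sub_mul, mul_sub, mul_sub, e1, e2]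
    have f1 : (site x (rA n) * site y (rB n))ᵀ * (site x (rB n) * site y (rA n)) =
        site x (rP n) * site y (rM n) := by
      rw [Matrix.transpose_mul, site_transpose, site_transpose, rA_transpose, mulxy, hAB, hBA]
    have f2 : (site x (rB n) * site y (rA n))ᵀ * (site x (rA n) * site y (rB n)) =
        site x (rM n) * site y (rP n) := by
      rw [Matrix.transpose_mul, site_transpose, site_transpose, rA_transpose, mulxy, hAB, hBA]
    rw [f1, f2]
    abel
  have e4 : (c • (1 : Matrix (Λ → Fin (n + 1)) (Λ → Fin (n + 1)) ℝ) + site x (rZ n)) *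
      (c • 1 - site y (rZ n)) +
      (c • 1 - site x (rZ n)) * (c • 1 + site y (rZ n)) =
      (2 * c ^ 2) • 1 - (2 : ℝ) • (site x (rZ n) * site y (rZ n)) := by
    simp only [add_mul, mul_add, sub_mul, mul_sub, smul_mul_assoc, mul_smul_comm, one_mul, mul_one,
      smul_add, smul_sub, smul_smul]
    have : (2 * c ^ 2) • (1 : Matrix (Λ → Fin (n + 1)) (Λ → Fin (n + 1)) ℝ) =
        (c * c) • 1 + (c * c) • 1 := by rw [← add_smul]; congr 1; ring
    rw [this, two_smul]
    abel
  have g12 : 0 ≤ ev n J h β ((2 * c ^ 2) • 1 - (2 : ℝ) • (site x (rZ n) * site y (rZ n))) := by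
    rw [← e4, ev_add]
    rw [e1] at c1
    rw [e2] at c2
    exact add_nonneg c1 c2
  have g3 : 0 ≤ ev n J h β ((2 * c ^ 2) • 1 - (2 : ℝ) • (site x (rZ n) * site y (rZ n)) -
      (site x (rP n) * site y (rM n) + site x (rM n) * site y (rP n))) := by
    rw [← e4]
    rw [e3] at c3
    exact c3
  unfold dotR
  simp only [ev_sub, ev_add, ev_smul] at g12 g3 ⊢
  have hn : (n : ℝ) ^ 2 / 2 = 2 * c ^ 2 := by rw [hc]; ring
  rw [hn]
  linarith

/-- Number bound: `⟨S^- S^+⟩ ≤ 2S ⟨S - S^3⟩`. -/
lemma number_le (n : ℕ) (J : Λ → Λ → ℝ) (hJ0 : ∀ x, J x x = 0) (h β : ℝ) (x : Λ) :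
    ev n J h β (site x (rM n) * site x (rP n)) ≤
      n * ((n : ℝ) / 2 * ev n J h β 1 - ev n J h β (site x (rZ n))) := by
  have hT := fieldR_transpose n J hJ0 h
  have c1 := gibbs_pos (fieldR n J h) (site x (rC n)) hT β
  rw [site_transpose, site_mul, ← number_bound, site_sub, site_smul, site_sub, site_smul,
    site_one, ← site_mul] at c1
  have c2 : 0 ≤ ev n J h β ((n : ℝ) • (((n : ℝ) / 2) • 1 - site x (rZ n)) -
      site x (rM n) * site x (rP n)) := c1
  simp only [ev_sub, ev_smul] at c2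
  linarith

/-- The exchange expectation is symmetric. -/
lemma exchange_symm (n : ℕ) (J : Λ → Λ → ℝ) (hJ0 : ∀ x, J x x = 0) (h β : ℝ) {x y : Λ}
    (hxy : x ≠ y) :
    ev n J h β (site x (rM n) * site y (rP n)) = ev n J h β (site x (rP n) * site y (rM n)) := by
  have hT := fieldR_transpose n J hJ0 h
  have := gibbs_transpose (fieldR n J h) (site x (rP n) * site y (rM n)) hT β
  rw [Matrix.transpose_mul, site_transpose, site_transpose, rP_transpose, rM_transpose,
    site_comm hxy.symm] at this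
  exact this

end Vale.Agent.P361
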