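import Vale.Agent.P361.FiniteVol

/-!
The finite-volume magnetization bound.
-/

set_option linter.unusedSectionVars false

namespace Vale.Agent.P361

open Matrix Finset

variable {Λ : Type*} [Fintype Λ] [DecidableEq Λ]

lemma ev_one_pos (n : ℕ) (J : Λ → Λ → ℝ) (hJ0 : ∀ x, J x x = 0) (h β : ℝ) :
    0 < ev n J h β 1 := by
  unfold ev
  rw [mul_one]
  exact gibbs_Z_pos _ (fieldR_transpose n J hJ0 h) β

lemma ev_double_le (n : ℕ) (J : Λ → Λ → ℝ) (hJ0 : ∀ x, J x x = 0) (hJ : ∀ x y, 0 ≤ J x y)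
    (h β : ℝ) (u : Λ → ℝ) :
    ev n J h β (cm (modeP n u) (cm (fieldR n J h) (modeM n u))) ≤
      (1 / 2 * ∑ x, ∑ y, J x y * (u x - u y) ^ 2) * ((n : ℝ) ^ 2 / 2 * ev n J h β 1) +
      h * ev n J h β (cm (modeP n u) (modeM n u)) := by
  unfold fieldR
  rw [double_comm n J hJ0 h u]
  simp only [ev_add, ev_smul, ev_sum, ev_sub]
  apply add_le_add _ le_rfl
  rw [mul_assoc]
  apply mul_le_mul_of_nonneg_left _ (by norm_num)
  rw [Finset.sum_mul]
  apply Finset.sum_le_sum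
  intro x _
  rw [Finset.sum_mul]
  apply Finset.sum_le_sum
  intro y _
  by_cases hxy : x = y
  · subst hxy; rw [hJ0]; simp
  · have h1 := exchange_le n J hJ0 h β hxy
    have h2 := exchange_symm n J hJ0 h β hxy
    unfold dotR at h1
    simp only [ev_add, ev_smul] at h1
    rw [h2] at h1 ⊢
    have h3 : 0 ≤ J x y * (u x - u y) ^ 2 := mul_nonneg (hJ x y) (sq_nonneg _)
    have h4 := mul_le_mul_of_nonneg_left h1 h3
    nlinarith [h4]

/-- One-mode inequality. -/
lemma mode_ineq (n : ℕ) (J : Λ → Λ → ℝ) (hJ0 : ∀ x, J x x = 0) (hJ : ∀ x y, 0 ≤ J x y)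
    (h β : ℝ) (hβ : 0 ≤ β) (u : Λ → ℝ) (K : ℕ) (x0 : ℝ) (hx0 : 0 ≤ x0) :
    ∑ ν ∈ Finset.range K, Real.exp (-((ν : ℝ) + 1) * x0) *
      ((1 + ((ν : ℝ) + 1) * x0) * (2 * ∑ x, u x ^ 2 * ev n J h β (site x (rZ n)))
        - ((ν : ℝ) + 1) * β * ((1 / 2 * ∑ x, ∑ y, J x y * (u x - u y) ^ 2) *
            ((n : ℝ) ^ 2 / 2 * ev n J h β 1) +
            h * (2 * ∑ x, u x ^ 2 * ev n J h β (site x (rZ n)))))
      ≤ ∑ x, ∑ y, u x * u y * ev n J h β (site x (rM n) * site y (rP n)) := by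
  have hT := fieldR_transpose n J hJ0 h
  have hH : (fieldR n J h).IsHermitian := by
    rw [Matrix.IsHermitian, Matrix.conjTranspose_eq_transpose_of_trivial]; exact hT
  have g := gibbs_ineq (fieldR n J h) (modeP n u) hH β K x0 hx0
  rw [modeP_transpose] at g
  have hm : ev n J h β (cm (modeP n u) (modeM n u)) =
      2 * ∑ x, u x ^ 2 * ev n J h β (site x (rZ n)) := by
    rw [lie_modeP_modeM, ev_sum, Finset.mul_sum]
    apply Finset.sum_congr rfl
    intro x _
    rw [ev_smul]; ring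
  have hP : ev n J h β (modeM n u * modeP n u) =
      ∑ x, ∑ y, u x * u y * ev n J h β (site x (rM n) * site y (rP n)) := by
    unfold modeM modeP
    rw [Finset.sum_mul, ev_sum]
    apply Finset.sum_congr rfl
    intro x _
    rw [Finset.mul_sum, ev_sum]
    apply Finset.sum_congr rfl
    intro y _
    rw [smul_mul_assoc, mul_smul_comm, ev_smul, ev_smul]; ring
  have hD := ev_double_le n J hJ0 hJ h β u
  rw [hm] at hD
  have g' : ∑ ν ∈ Finset.range K, Real.exp (-((ν : ℝ) + 1) * x0) *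
      ((1 + ((ν : ℝ) + 1) * x0) * ev n J h β (cm (modeP n u) (modeM n u))
        - ((ν : ℝ) + 1) * β * ev n J h β (cm (modeP n u) (cm (fieldR n J h) (modeM n u))))
      ≤ ev n J h β (modeM n u * modeP n u) := g
  rw [hm, hP] at g'
  refine le_trans ?_ g'
  apply Finset.sum_le_sum
  intro ν _
  apply mul_le_mul_of_nonneg_left _ (Real.exp_pos _).le
  have h5 : 0 ≤ ((ν : ℝ) + 1) * β := by positivity
  have h6 := mul_le_mul_of_nonneg_left hD h5
  linarith

/-- Finite-volume bound. -/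
theorem finite_volume (n : ℕ) (J : Λ → Λ → ℝ) (hJ0 : ∀ x, J x x = 0) (hJ : ∀ x y, 0 ≤ J x y)
    (h β : ℝ) (hh : 0 ≤ h) (hβ : 0 ≤ β) [Nonempty Λ]
    {κ : Type*} [Fintype κ] (c s : κ → Λ → ℝ)
    (hcs : ∀ k x, c k x ^ 2 + s k x ^ 2 = 1)
    (horth : ∀ x y, ∑ k, (c k x * c k y + s k x * s k y) =
      if x = y then (Fintype.card Λ : ℝ) else 0)
    (ε : κ → ℝ) (hε0 : ∀ k, 0 ≤ ε k)
    (hε : ∀ k, (1 / 2 * ∑ x, ∑ y, J x y * ((c k x - c k y) ^ 2 + (s k x - s k y) ^ 2)) *
      ((n : ℝ) ^ 2 / 2) ≤ Fintype.card Λ * ε k)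
    (m : ℝ) (hm : 0 < m)
    (hmag : ev n J h β (magR n) = Fintype.card Λ * m * ev n J h β 1) (K : ℕ) :
    2 * m / Fintype.card Λ * ∑ k, ∑ ν ∈ Finset.range K,
      Real.exp (-((ν : ℝ) + 1) * (β * (ε k / (2 * m) + h))) ≤ n * ((n : ℝ) / 2 - m) := by
  set N : ℝ := (Fintype.card Λ : ℝ) with hN
  have hNpos : 0 < N := by rw [hN]; exact_mod_cast Fintype.card_pos
  set Z := ev n J h β 1 with hZ
  have hZpos : 0 < Z := ev_one_pos n J hJ0 h β
  have hmag' : ∑ x, ev n J h β (site x (rZ n)) = N * m * Z := by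
    rw [← hmag]; unfold magR; rw [ev_sum]
  -- per mode bound
  have hmode : ∀ k, ∑ ν ∈ Finset.range K,
      Real.exp (-((ν : ℝ) + 1) * (β * (ε k / (2 * m) + h))) * (2 * (N * m * Z)) ≤
      ∑ x, ∑ y, (c k x * c k y + s k x * s k y) *
        ev n J h β (site x (rM n) * site y (rP n)) := by
    intro k
    set x0 := β * (ε k / (2 * m) + h) with hx0
    have hx0' : 0 ≤ x0 := by
      have := hε0 k
      rw [hx0]; positivity
    have m1 := mode_ineq n J hJ0 hJ h β hβ (c k) K x0 hx0'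
    have m2 := mode_ineq n J hJ0 hJ h β hβ (s k) K x0 hx0'
    have m3 := add_le_add m1 m2
    rw [← Finset.sum_add_distrib, ← Finset.sum_add_distrib] at m3
    have r1 : ∑ x, ∑ y, (c k x * c k y + s k x * s k y) *
        ev n J h β (site x (rM n) * site y (rP n)) =
        ∑ x, (∑ y, c k x * c k y * ev n J h β (site x (rM n) * site y (rP n)) +
          ∑ y, s k x * s k y * ev n J h β (site x (rM n) * site y (rP n))) := by
      apply Finset.sum_congr rfl
      intro x _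
      rw [← Finset.sum_add_distrib]
      apply Finset.sum_congr rfl
      intro y _
      ring
    rw [r1]
    refine le_trans ?_ m3
    apply Finset.sum_le_sum
    intro ν _
    set e := Real.exp (-((ν : ℝ) + 1) * x0) with he
    have hepos : 0 < e := Real.exp_pos _
    have s1 : (∑ x, c k x ^ 2 * ev n J h β (site x (rZ n))) +
        (∑ x, s k x ^ 2 * ev n J h β (site x (rZ n))) = N * m * Z := by
      rw [← hmag', ← Finset.sum_add_distrib]
      apply Finset.sum_congr rfl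
      intro x _
      rw [← add_mul, hcs k x, one_mul]
    have s2 : (1 / 2 * ∑ x, ∑ y, J x y * (c k x - c k y) ^ 2) +
        (1 / 2 * ∑ x, ∑ y, J x y * (s k x - s k y) ^ 2) =
        1 / 2 * ∑ x, ∑ y, J x y * ((c k x - c k y) ^ 2 + (s k x - s k y) ^ 2) := by
      rw [← mul_add, ← Finset.sum_add_distrib]
      congr 1
      apply Finset.sum_congr rfl
      intro x _
      rw [← Finset.sum_add_distrib]
      apply Finset.sum_congr rfl
      intro y _
      ring
    have s3 : ((1 / 2 * ∑ x, ∑ y, J x y * (c k x - c k y) ^ 2) +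
        (1 / 2 * ∑ x, ∑ y, J x y * (s k x - s k y) ^ 2)) * ((n : ℝ) ^ 2 / 2 * Z) ≤
        N * ε k * Z := by
      rw [s2, ← mul_assoc]
      exact mul_le_mul_of_nonneg_right (hε k) hZpos.le
    set Sc := ∑ x, c k x ^ 2 * ev n J h β (site x (rZ n))
    set Ss := ∑ x, s k x ^ 2 * ev n J h β (site x (rZ n))
    set Dc := 1 / 2 * ∑ x, ∑ y, J x y * (c k x - c k y) ^ 2
    set Ds := 1 / 2 * ∑ x, ∑ y, J x y * (s k x - s k y) ^ 2
    rw [← mul_add]
    apply mul_le_mul_of_nonneg_left _ hepos.le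
    have hx0eq : x0 * (2 * (N * m * Z)) = β * (N * ε k * Z + h * (2 * (N * m * Z))) := by
      rw [hx0]; field_simp
    have hν : 0 ≤ ((ν : ℝ) + 1) * β := by positivity
    have s4 := mul_le_mul_of_nonneg_left s3 hν
    have s5 : ((ν : ℝ) + 1) * (x0 * (2 * (N * m * Z))) =
        ((ν : ℝ) + 1) * (β * (N * ε k * Z + h * (2 * (N * m * Z)))) := by rw [hx0eq]
    rw [← hZ]
    have s6 : (1 + ((ν : ℝ) + 1) * x0) * (2 * Sc) - ((ν : ℝ) + 1) * β *
          (Dc * ((n : ℝ) ^ 2 / 2 * Z) + h * (2 * Sc)) +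
        ((1 + ((ν : ℝ) + 1) * x0) * (2 * Ss) - ((ν : ℝ) + 1) * β *
          (Ds * ((n : ℝ) ^ 2 / 2 * Z) + h * (2 * Ss))) =
        (1 + ((ν : ℝ) + 1) * x0) * (2 * (Sc + Ss)) - ((ν : ℝ) + 1) * β *
          ((Dc + Ds) * ((n : ℝ) ^ 2 / 2 * Z) + h * (2 * (Sc + Ss))) := by ring
    rw [s6, s1]
    linarith
  have hsum := Finset.sum_le_sum fun k (_ : k ∈ Finset.univ) => hmode k
  have hR : ∑ k, ∑ x, ∑ y, (c k x * c k y + s k x * s k y) *
      ev n J h β (site x (rM n) * site y (rP n)) =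
      N * ∑ x, ev n J h β (site x (rM n) * site x (rP n)) := by
    rw [Finset.sum_comm, Finset.mul_sum]
    apply Finset.sum_congr rfl
    intro x _
    rw [Finset.sum_comm]
    have : ∀ y, ∑ k, (c k x * c k y + s k x * s k y) *
        ev n J h β (site x (rM n) * site y (rP n)) =
        (if x = y then N else 0) * ev n J h β (site x (rM n) * site y (rP n)) := by
      intro y; rw [← Finset.sum_mul, horth x y]
    simp only [this]
    simp
  rw [hR] at hsum
  have hnum : ∑ x, ev n J h β (site x (rM n) * site x (rP n)) ≤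
      N * (n * ((n : ℝ) / 2 - m) * Z) := by
    calc _ ≤ ∑ x : Λ, (n * ((n : ℝ) / 2 * Z - ev n J h β (site x (rZ n)))) :=
          Finset.sum_le_sum fun x _ => number_le n J hJ0 h β x
      _ = N * (n * ((n : ℝ) / 2 - m) * Z) := by
          rw [← Finset.mul_sum, Finset.sum_sub_distrib, hmag', Finset.sum_const,
            Finset.card_univ, nsmul_eq_mul, ← hN]
          ring
  have hfin : ∑ k, ∑ ν ∈ Finset.range K,
      Real.exp (-((ν : ℝ) + 1) * (β * (ε k / (2 * m) + h))) * (2 * (N * m * Z)) ≤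
      N * (N * (n * ((n : ℝ) / 2 - m) * Z)) :=
    le_trans hsum (mul_le_mul_of_nonneg_left hnum hNpos.le)
  have hfac : ∑ k, ∑ ν ∈ Finset.range K,
      Real.exp (-((ν : ℝ) + 1) * (β * (ε k / (2 * m) + h))) * (2 * (N * m * Z)) =
      (∑ k, ∑ ν ∈ Finset.range K,
      Real.exp (-((ν : ℝ) + 1) * (β * (ε k / (2 * m) + h)))) * (2 * (N * m * Z)) := by
    rw [Finset.sum_mul]
    apply Finset.sum_congr rfl
    intro k _
    rw [Finset.sum_mul]
  rw [hfac] at hfin
  set T := ∑ k, ∑ ν ∈ Finset.range K,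
      Real.exp (-((ν : ℝ) + 1) * (β * (ε k / (2 * m) + h)))
  have hNZ : 0 < N * N * Z := by positivity
  have e1 : T * (2 * (N * m * Z)) = (2 * m / N * T) * (N * N * Z) := by
    field_simp
  have e2 : N * (N * (n * ((n : ℝ) / 2 - m) * Z)) = (n * ((n : ℝ) / 2 - m)) * (N * N * Z) := by
    ring
  rw [e1, e2] at hfin
  exact le_of_mul_le_mul_right hfin hNZ

end Vale.Agent.P361
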