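import Mathlib

/-!
An elementary lower bound for `⟨A* A⟩` in a finite-dimensional Gibbs state
(a truncated form of the Falk-Bruch / Roepstorff bound), over the reals.
-/

namespace Vale.Agent.P361

open Matrix Finset

/-- The scalar inequality behind the operator bound. -/
lemma scalar_key (K : ℕ) (x x0 : ℝ) (hx0 : 0 ≤ x0) :
    (1 - Real.exp (-x)) * ∑ n ∈ Finset.range K,
      Real.exp (-((n : ℝ) + 1) * x0) * (1 - ((n : ℝ) + 1) * (x - x0)) ≤ Real.exp (-x) := by
  rcases le_or_gt 0 x with hx | hx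
  · have h1 : ∀ n : ℕ, Real.exp (-((n : ℝ) + 1) * x0) * (1 - ((n : ℝ) + 1) * (x - x0)) ≤
        Real.exp (-x) ^ (n + 1) := by
      intro n
      have h := Real.add_one_le_exp (-((n : ℝ) + 1) * (x - x0))
      calc Real.exp (-((n : ℝ) + 1) * x0) * (1 - ((n : ℝ) + 1) * (x - x0))
          ≤ Real.exp (-((n : ℝ) + 1) * x0) * Real.exp (-((n : ℝ) + 1) * (x - x0)) := by
            apply mul_le_mul_of_nonneg_left _ (Real.exp_pos _).le
            linarith
        _ = Real.exp (-x) ^ (n + 1) := by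
            rw [← Real.exp_add, ← Real.exp_nat_mul]
            congr 1
            push_cast
            ring
    have hq1 : Real.exp (-x) ≤ 1 := by
      rw [Real.exp_le_one_iff]; linarith
    have hq0 : 0 < Real.exp (-x) := Real.exp_pos _
    have h2 : ∑ n ∈ Finset.range K,
        Real.exp (-((n : ℝ) + 1) * x0) * (1 - ((n : ℝ) + 1) * (x - x0)) ≤
        ∑ n ∈ Finset.range K, Real.exp (-x) ^ (n + 1) := Finset.sum_le_sum fun n _ => h1 n
    have h3 : ∀ q : ℝ, ∀ K : ℕ, (1 - q) * ∑ n ∈ Finset.range K, q ^ (n + 1) = q - q ^ (K + 1) := by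
      intro q K
      induction K with
      | zero => simp
      | succ k ih => rw [Finset.sum_range_succ, mul_add, ih]; ring
    calc _ ≤ (1 - Real.exp (-x)) * ∑ n ∈ Finset.range K, Real.exp (-x) ^ (n + 1) :=
          mul_le_mul_of_nonneg_left h2 (by linarith)
      _ = Real.exp (-x) - Real.exp (-x) ^ (K + 1) := h3 _ _
      _ ≤ Real.exp (-x) := by
          have : 0 < Real.exp (-x) ^ (K + 1) := pow_pos hq0 _
          linarith
  · have h1 : (1 - Real.exp (-x)) ≤ 0 := by
      have : 1 ≤ Real.exp (-x) := by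
        rw [Real.one_le_exp_iff]; linarith
      linarith
    have h2 : 0 ≤ ∑ n ∈ Finset.range K,
        Real.exp (-((n : ℝ) + 1) * x0) * (1 - ((n : ℝ) + 1) * (x - x0)) := by
      apply Finset.sum_nonneg
      intro n _
      apply mul_nonneg (Real.exp_pos _).le
      have : 0 ≤ ((n : ℝ) + 1) * (x0 - x) := by
        apply mul_nonneg
        · positivity
        · linarith
      linarith
    calc _ ≤ 0 := mul_nonpos_of_nonpos_of_nonneg h1 h2
      _ ≤ _ := (Real.exp_pos _).le

/-- Two-level form: weights `p_i = exp (-β E_i)`. -/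
lemma pair_key (K : ℕ) (β x0 Ei Ej : ℝ) (hx0 : 0 ≤ x0) :
    ∑ n ∈ Finset.range K, Real.exp (-((n : ℝ) + 1) * x0) *
      ((1 + ((n : ℝ) + 1) * x0) * (Real.exp (-β * Ei) - Real.exp (-β * Ej))
        - ((n : ℝ) + 1) * β *
          ((Real.exp (-β * Ei) - Real.exp (-β * Ej)) * (Ej - Ei))) ≤ Real.exp (-β * Ej) := by
  have h := scalar_key K (β * (Ej - Ei)) x0 hx0
  have hp : 0 < Real.exp (-β * Ei) := Real.exp_pos _
  have h2 := mul_le_mul_of_nonneg_left h hp.le
  have e1 : Real.exp (-β * Ei) * Real.exp (-(β * (Ej - Ei))) = Real.exp (-β * Ej) := by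
    rw [← Real.exp_add]; congr 1; ring
  rw [e1] at h2
  calc _ = Real.exp (-β * Ei) * ((1 - Real.exp (-(β * (Ej - Ei)))) *
      ∑ n ∈ Finset.range K, Real.exp (-((n : ℝ) + 1) * x0) *
        (1 - ((n : ℝ) + 1) * (β * (Ej - Ei) - x0))) := by
        have e2 : Real.exp (-β * Ei) * ((1 - Real.exp (-(β * (Ej - Ei)))) *
            ∑ n ∈ Finset.range K, Real.exp (-((n : ℝ) + 1) * x0) *
              (1 - ((n : ℝ) + 1) * (β * (Ej - Ei) - x0))) =
            (Real.exp (-β * Ei) - Real.exp (-β * Ei) * Real.exp (-(β * (Ej - Ei)))) *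
            ∑ n ∈ Finset.range K, Real.exp (-((n : ℝ) + 1) * x0) *
              (1 - ((n : ℝ) + 1) * (β * (Ej - Ei) - x0)) := by ring
        rw [e2, e1, Finset.mul_sum]
        apply Finset.sum_congr rfl
        intro n _
        ring
    _ ≤ _ := h2

section
variable {ι : Type*} [Fintype ι] [DecidableEq ι]

/-- The bound when the Hamiltonian is diagonal. -/
lemma gibbs_diag (E : ι → ℝ) (B : Matrix ι ι ℝ) (β : ℝ) (K : ℕ) (x0 : ℝ) (hx0 : 0 ≤ x0) :
    ∑ n ∈ Finset.range K, Real.exp (-((n : ℝ) + 1) * x0) *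
      ((1 + ((n : ℝ) + 1) * x0) *
          trace (diagonal (fun i => Real.exp (-β * E i)) * (B * Bᵀ - Bᵀ * B))
        - ((n : ℝ) + 1) * β *
          trace (diagonal (fun i => Real.exp (-β * E i)) *
            (B * (diagonal E * Bᵀ - Bᵀ * diagonal E) - (diagonal E * Bᵀ - Bᵀ * diagonal E) * B)))
      ≤ trace (diagonal (fun i => Real.exp (-β * E i)) * (Bᵀ * B)) := by
  have hP : trace (diagonal (fun i => Real.exp (-β * E i)) * (Bᵀ * B)) =
      ∑ i, ∑ j, Real.exp (-β * E j) * B i j ^ 2 := by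
    rw [Finset.sum_comm]
    simp only [Matrix.trace, Matrix.diag_apply, Matrix.diagonal_mul]
    simp only [Matrix.mul_apply, Matrix.transpose_apply]
    apply Finset.sum_congr rfl
    intro j _
    rw [Finset.mul_sum]
    apply Finset.sum_congr rfl
    intro i _
    ring
  have hM : trace (diagonal (fun i => Real.exp (-β * E i)) * (B * Bᵀ - Bᵀ * B)) =
      ∑ i, ∑ j, (Real.exp (-β * E i) - Real.exp (-β * E j)) * B i j ^ 2 := by
    rw [mul_sub, Matrix.trace_sub, hP]
    simp only [Matrix.trace, Matrix.diag_apply, Matrix.diagonal_mul]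
    simp only [Matrix.mul_apply, Matrix.transpose_apply]
    rw [← Finset.sum_sub_distrib]
    apply Finset.sum_congr rfl
    intro i _
    rw [Finset.mul_sum, ← Finset.sum_sub_distrib]
    apply Finset.sum_congr rfl
    intro j _
    ring
  have hC : trace (diagonal (fun i => Real.exp (-β * E i)) *
      (B * (diagonal E * Bᵀ - Bᵀ * diagonal E) - (diagonal E * Bᵀ - Bᵀ * diagonal E) * B)) =
      ∑ i, ∑ j, ((Real.exp (-β * E i) - Real.exp (-β * E j)) * (E j - E i)) * B i j ^ 2 := by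
    rw [mul_sub, Matrix.trace_sub]
    have h1 : trace (diagonal (fun i => Real.exp (-β * E i)) *
        (B * (diagonal E * Bᵀ - Bᵀ * diagonal E))) =
        ∑ i, ∑ j, (Real.exp (-β * E i) * (E j - E i)) * B i j ^ 2 := by
      simp only [Matrix.trace, Matrix.diag_apply, Matrix.diagonal_mul]
      apply Finset.sum_congr rfl
      intro i _
      rw [Matrix.mul_apply]
      simp only [Matrix.sub_apply, Matrix.mul_diagonal, Matrix.diagonal_mul,
        Matrix.transpose_apply]
      rw [Finset.mul_sum]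
      apply Finset.sum_congr rfl
      intro j _
      ring
    have h2 : trace (diagonal (fun i => Real.exp (-β * E i)) *
        ((diagonal E * Bᵀ - Bᵀ * diagonal E) * B)) =
        ∑ i, ∑ j, (Real.exp (-β * E j) * (E j - E i)) * B i j ^ 2 := by
      rw [Finset.sum_comm]
      simp only [Matrix.trace, Matrix.diag_apply, Matrix.diagonal_mul]
      apply Finset.sum_congr rfl
      intro i _
      rw [Matrix.mul_apply]
      simp only [Matrix.sub_apply, Matrix.mul_diagonal, Matrix.diagonal_mul,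
        Matrix.transpose_apply]
      rw [Finset.mul_sum]
      apply Finset.sum_congr rfl
      intro j _
      ring
    rw [h1, h2, ← Finset.sum_sub_distrib]
    apply Finset.sum_congr rfl
    intro i _
    rw [← Finset.sum_sub_distrib]
    apply Finset.sum_congr rfl
    intro j _
    ring
  rw [hP, hM, hC]
  have key : ∀ i j, (∑ n ∈ Finset.range K, Real.exp (-((n : ℝ) + 1) * x0) *
      ((1 + ((n : ℝ) + 1) * x0) * (Real.exp (-β * E i) - Real.exp (-β * E j))
        - ((n : ℝ) + 1) * β *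
          ((Real.exp (-β * E i) - Real.exp (-β * E j)) * (E j - E i)))) * B i j ^ 2 ≤
      Real.exp (-β * E j) * B i j ^ 2 := fun i j =>
    mul_le_mul_of_nonneg_right (pair_key K β x0 (E i) (E j) hx0) (sq_nonneg _)
  calc _ = ∑ i, ∑ j, (∑ n ∈ Finset.range K, Real.exp (-((n : ℝ) + 1) * x0) *
      ((1 + ((n : ℝ) + 1) * x0) * (Real.exp (-β * E i) - Real.exp (-β * E j))
        - ((n : ℝ) + 1) * β *
          ((Real.exp (-β * E i) - Real.exp (-β * E j)) * (E j - E i)))) * B i j ^ 2 := by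
        simp only [Finset.mul_sum, Finset.sum_mul, ← Finset.sum_sub_distrib]
        rw [Finset.sum_comm]
        apply Finset.sum_congr rfl
        intro i _
        rw [Finset.sum_comm]
        apply Finset.sum_congr rfl
        intro j _
        apply Finset.sum_congr rfl
        intro n _
        ring
    _ ≤ _ := Finset.sum_le_sum fun i _ => Finset.sum_le_sum fun j _ => key i j

/-- The bound for a general real symmetric Hamiltonian. -/
theorem gibbs_ineq (H A : Matrix ι ι ℝ) (hH : H.IsHermitian) (β : ℝ) (K : ℕ) (x0 : ℝ)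
    (hx0 : 0 ≤ x0) :
    ∑ n ∈ Finset.range K, Real.exp (-((n : ℝ) + 1) * x0) *
      ((1 + ((n : ℝ) + 1) * x0) * trace (NormedSpace.exp (-β • H) * (A * Aᵀ - Aᵀ * A))
        - ((n : ℝ) + 1) * β *
          trace (NormedSpace.exp (-β • H) *
            (A * (H * Aᵀ - Aᵀ * H) - (H * Aᵀ - Aᵀ * H) * A)))
      ≤ trace (NormedSpace.exp (-β • H) * (Aᵀ * A)) := by
  set U : Matrix ι ι ℝ := (hH.eigenvectorUnitary : Matrix ι ι ℝ) with hU
  set E : ι → ℝ := hH.eigenvalues with hE
  have hUU : U * Uᵀ = 1 := by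
    have := Unitary.mul_star_self_of_mem hH.eigenvectorUnitary.2
    rwa [Matrix.star_eq_conjTranspose, Matrix.conjTranspose_eq_transpose_of_trivial] at this
  have hUU' : Uᵀ * U = 1 := by
    have := Unitary.star_mul_self_of_mem hH.eigenvectorUnitary.2
    rwa [Matrix.star_eq_conjTranspose, Matrix.conjTranspose_eq_transpose_of_trivial] at this
  have hspec : H = U * diagonal E * Uᵀ := by
    have h := hH.spectral_theorem
    rw [Unitary.conjStarAlgAut_apply] at h
    rw [Matrix.star_eq_conjTranspose, Matrix.conjTranspose_eq_transpose_of_trivial] at h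
    exact h
  have hinv : U⁻¹ = Uᵀ := Matrix.inv_eq_right_inv hUU
  have hUunit : IsUnit U := by
    refine ⟨⟨U, Uᵀ, hUU, hUU'⟩, rfl⟩
  have hexp : NormedSpace.exp (-β • H) = U * diagonal (fun i => Real.exp (-β * E i)) * Uᵀ := by
    have h1 : -β • H = U * diagonal (fun i => -β * E i) * U⁻¹ := by
      rw [hinv, hspec]
      have : diagonal (fun i => -β * E i) = -β • diagonal E := by
        ext i j
        by_cases hij : i = j
        · subst hij; simp
        · simp [hij]
      rw [this]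
      simp only [Matrix.mul_smul, Matrix.smul_mul]
    rw [h1, Matrix.exp_conj U _ hUunit, Matrix.exp_diagonal, hinv]
    congr 2
    congr 1
    ext i
    rw [Pi.coe_exp, Real.exp_eq_exp_ℝ]
  have hA : A = U * (Uᵀ * A * U) * Uᵀ := by
    calc A = (U * Uᵀ) * A * (U * Uᵀ) := by rw [hUU, one_mul, mul_one]
      _ = _ := by simp only [Matrix.mul_assoc]
  set B : Matrix ι ι ℝ := Uᵀ * A * U with hB
  have hAT : Aᵀ = U * Bᵀ * Uᵀ := by
    rw [hA]
    simp only [Matrix.transpose_mul, Matrix.transpose_transpose, Matrix.mul_assoc]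
  -- conjugation calculus
  have conj_mul : ∀ X Y : Matrix ι ι ℝ, (U * X * Uᵀ) * (U * Y * Uᵀ) = U * (X * Y) * Uᵀ := by
    intro X Y
    calc (U * X * Uᵀ) * (U * Y * Uᵀ) = U * X * (Uᵀ * U) * Y * Uᵀ := by
          simp only [Matrix.mul_assoc]
      _ = _ := by rw [hUU', mul_one]; simp only [Matrix.mul_assoc]
  have conj_sub : ∀ X Y : Matrix ι ι ℝ, (U * X * Uᵀ) - (U * Y * Uᵀ) = U * (X - Y) * Uᵀ := by
    intro X Y
    rw [mul_sub, sub_mul]
  have conj_tr : ∀ X : Matrix ι ι ℝ, trace (U * X * Uᵀ) = trace X := by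
    intro X
    rw [Matrix.trace_mul_comm, ← Matrix.mul_assoc, hUU', one_mul]
  have h := gibbs_diag E B β K x0 hx0
  rw [hexp]
  have e1 : A * Aᵀ - Aᵀ * A = U * (B * Bᵀ - Bᵀ * B) * Uᵀ := by
    calc A * Aᵀ - Aᵀ * A = (U * B * Uᵀ) * (U * Bᵀ * Uᵀ) - (U * Bᵀ * Uᵀ) * (U * B * Uᵀ) := by
          rw [← hAT, ← hA]
      _ = _ := by rw [conj_mul, conj_mul, conj_sub]
  have e2 : H * Aᵀ - Aᵀ * H = U * (diagonal E * Bᵀ - Bᵀ * diagonal E) * Uᵀ := by
    rw [hAT, hspec, conj_mul, conj_mul, conj_sub]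
  have e3 : A * (H * Aᵀ - Aᵀ * H) - (H * Aᵀ - Aᵀ * H) * A =
      U * (B * (diagonal E * Bᵀ - Bᵀ * diagonal E) -
        (diagonal E * Bᵀ - Bᵀ * diagonal E) * B) * Uᵀ := by
    rw [e2]
    calc A * (U * (diagonal E * Bᵀ - Bᵀ * diagonal E) * Uᵀ) -
        U * (diagonal E * Bᵀ - Bᵀ * diagonal E) * Uᵀ * A =
        (U * B * Uᵀ) * (U * (diagonal E * Bᵀ - Bᵀ * diagonal E) * Uᵀ) -
        (U * (diagonal E * Bᵀ - Bᵀ * diagonal E) * Uᵀ) * (U * B * Uᵀ) := by rw [← hA]
      _ = _ := by rw [conj_mul, conj_mul, conj_sub]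
  have e4 : Aᵀ * A = U * (Bᵀ * B) * Uᵀ := by
    calc Aᵀ * A = (U * Bᵀ * Uᵀ) * (U * B * Uᵀ) := by rw [← hAT, ← hA]
      _ = _ := by rw [conj_mul]
  rw [e3, e1, e4, conj_mul, conj_mul, conj_mul, conj_tr, conj_tr, conj_tr]
  exact h

end

end Vale.Agent.P361
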