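import Vale.Agent.P361.BoxBound

/-!
Identification of the pressure with its real form, existence of the infinite-volume limit,
convexity and the right derivative at zero field.
-/

set_option linter.unusedSectionVars false

namespace Vale.Agent.P361

open Matrix Finset Filter Topology

section complexify
variable {Λ : Type*} [Fintype Λ] [DecidableEq Λ]

/-- Entrywise complexification. -/
noncomputable def cx {ι : Type*} [Fintype ι] [DecidableEq ι] : Matrix ι ι ℝ →+* Matrix ι ι ℂ :=
  Complex.ofRealHom.mapMatrix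

lemma cx_apply {ι : Type*} [Fintype ι] [DecidableEq ι] (A : Matrix ι ι ℝ) (i j : ι) :
    cx A i j = (A i j : ℂ) := rfl

lemma cx_continuous {ι : Type*} [Fintype ι] [DecidableEq ι] :
    Continuous (cx : Matrix ι ι ℝ →+* Matrix ι ι ℂ) := by
  apply continuous_matrix
  intro i j
  simp only [cx_apply]
  exact Complex.continuous_ofReal.comp (continuous_id.matrix_elem i j)

lemma cx_smul {ι : Type*} [Fintype ι] [DecidableEq ι] (c : ℝ) (A : Matrix ι ι ℝ) :
    cx (c • A) = (c : ℂ) • cx A := by
  ext i j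
  simp [cx_apply]

lemma cx_site (n : ℕ) (x : Λ) (A : Matrix (Fin (n + 1)) (Fin (n + 1)) ℝ) :
    cx (site x A) = site x (cx A) := site_map Complex.ofRealHom x A

lemma spin3_eq (n : ℕ) : spin3 n = cx (rZ n) := by
  ext i j
  rw [cx_apply]
  unfold spin3 rZ
  rw [Matrix.diagonal_apply, Matrix.diagonal_apply]
  split_ifs
  · push_cast; rfl
  · simp

lemma spinUp_eq (n : ℕ) : spinUp n = cx (rP n) := by
  ext i j
  rw [cx_apply]
  unfold spinUp rP
  simp only [Matrix.of_apply]
  split_ifs
  · rfl
  · simp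

lemma spinUp_conj (n : ℕ) : (spinUp n)ᴴ = cx (rM n) := by
  rw [spinUp_eq]
  ext i j
  rw [Matrix.conjTranspose_apply, cx_apply, cx_apply]
  unfold rM
  rw [Matrix.transpose_apply]
  simp

lemma spinDot_eq (n : ℕ) (x y : Λ) : spinDot n x y = cx (dotR n x y) := by
  unfold spinDot dotR
  rw [map_add, map_mul, cx_smul, map_add, map_mul, map_mul]
  simp only [cx_site, ← spin3_eq]
  rw [← spinUp_eq, ← spinUp_conj]
  unfold spin1 spin2
  simp only [site_smul, site_add, site_sub]
  set P := site x (spinUp n)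
  set M := site x ((spinUp n)ᴴ)
  set P' := site y (spinUp n)
  set M' := site y ((spinUp n)ᴴ)
  have hI : (1 / (2 * Complex.I) : ℂ) * (1 / (2 * Complex.I)) = -(1 / 4) := by
    have : Complex.I * Complex.I = -1 := Complex.I_mul_I
    have hne : Complex.I ≠ 0 := Complex.I_ne_zero
    field_simp
    rw [show Complex.I ^ 2 = -1 from Complex.I_sq]
    norm_num
  have e2 : ((1 / (2 * Complex.I) : ℂ) • (P - M)) * ((1 / (2 * Complex.I) : ℂ) • (P' - M')) =
      (-(1 / 4) : ℂ) • ((P - M) * (P' - M')) := by
    rw [smul_mul_assoc, mul_smul_comm, smul_smul, hI]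
  have e1 : ((1 / 2 : ℂ) • (P + M)) * ((1 / 2 : ℂ) • (P' + M')) =
      (1 / 4 : ℂ) • ((P + M) * (P' + M')) := by
    rw [smul_mul_assoc, mul_smul_comm, smul_smul]; norm_num
  rw [e1, e2]
  have e3 : ((1 / 2 : ℝ) : ℂ) = 1 / 2 := by push_cast; rfl
  rw [e3]
  simp only [add_mul, mul_add, sub_mul, mul_sub]
  module

end complexify

lemma ham_eq (n N : ℕ) : ham n (fun x y : box N => nn x y) = cx (hamR n (Jc (box N))) := by
  unfold ham hamR
  rw [map_neg, cx_smul, map_sum]
  have e3 : ((1 / 2 : ℝ) : ℂ) = 1 / 2 := by push_cast; rfl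
  rw [e3]
  congr 2
  apply Finset.sum_congr rfl
  intro x _
  rw [map_sum]
  apply Finset.sum_congr rfl
  intro y _
  rw [cx_smul, ← spinDot_eq]
  unfold Jc
  split_ifs <;> simp

lemma mag_eq (n N : ℕ) : mag (Λ := box N) n = cx (magR n) := by
  unfold mag magR
  rw [map_sum]
  apply Finset.sum_congr rfl
  intro x _
  rw [cx_site, spin3_eq]

lemma finPressure_eq (n N : ℕ) (β h : ℝ) :
    finPressure n N β h = 1 / (β * ((box N).card : ℝ)) * FZ n β h (box N) := by
  unfold finPressure partFn FZ logZ
  congr 2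
  have e1 : -(β : ℂ) • (ham n (fun x y : box N => nn x y) - (h : ℂ) • mag n) =
      cx (-β • fieldR n (Jc (box N)) h) := by
    unfold fieldR
    rw [cx_smul, map_sub, cx_smul, ← ham_eq, ← mag_eq]
    push_cast
    rfl
  rw [e1, ← map_exp_matrix cx cx_continuous]
  have : Matrix.trace (cx (NormedSpace.exp (-β • fieldR n (Jc (box N)) h))) =
      ((Matrix.trace (NormedSpace.exp (-β • fieldR n (Jc (box N)) h)) : ℝ) : ℂ) := by
    simp only [Matrix.trace, Matrix.diag_apply, cx_apply]
    push_cast
    rfl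
  rw [this, Complex.ofReal_re]

/-- Existence of the pressure. -/
theorem pressure_tendsto (n : ℕ) (β h : ℝ) (hβ : 0 < β) :
    Tendsto (fun N : ℕ => finPressure n N β h) atTop (𝓝 (pressure n β h)) := by
  obtain ⟨p, hp⟩ := FZ_box_limit n β h hβ.le
  have h1 : Tendsto (fun N : ℕ => finPressure n N β h) atTop (𝓝 (1 / β * p)) := by
    have := hp.const_mul (1 / β)
    refine this.congr ?_
    intro N
    rw [finPressure_eq]
    have := box_card_pos N
    field_simp
  unfold pressure
  exact tendsto_nhds_limUnder ⟨_, h1⟩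

theorem pressure_convex (n : ℕ) (β : ℝ) (hβ : 0 < β) :
    ConvexOn ℝ Set.univ (pressure n β) := by
  refine ⟨convex_univ, ?_⟩
  intro x _ y _ a b ha hb hab
  have hx := (pressure_tendsto n β x hβ).const_smul a
  have hy := (pressure_tendsto n β y hβ).const_smul b
  have hz := pressure_tendsto n β (a • x + b • y) hβ
  refine le_of_tendsto_of_tendsto hz (hx.add hy) (Eventually.of_forall fun N => ?_)
  have hc := (logZ_convex n (Jc (box N)) (Jc_diag _) β).2 (Set.mem_univ x) (Set.mem_univ y)
    ha hb hab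
  simp only [finPressure_eq, smul_eq_mul] at *
  have hpos : 0 ≤ 1 / (β * ((box N).card : ℝ)) := by
    have := box_card_pos N
    positivity
  have h2 := mul_le_mul_of_nonneg_left hc hpos
  unfold FZ
  linarith

theorem spontMag_hasDeriv (n : ℕ) (β : ℝ) (hβ : 0 < β) :
    HasDerivWithinAt (pressure n β) (spontMag n β) (Set.Ioi 0) 0 :=
  (pressure_convex n β hβ).hasDerivWithinAt_rightDeriv_of_mem_interior (by simp)

lemma spontMag_le_slope (n : ℕ) (β : ℝ) (hβ : 0 < β) (h : ℝ) (hh : 0 < h) :
    spontMag n β ≤ (pressure n β h - pressure n β 0) / h := by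
  have := (pressure_convex n β hβ).rightDeriv_le_slope_of_mem_interior (x := 0) (y := h)
    (by simp) (Set.mem_univ _) hh
  rw [slope_def_field, sub_zero] at this
  exact this

/-- The finite-volume magnetization density dominates the difference quotient. -/
lemma mdens_ge (n : ℕ) (β h : ℝ) (hβ : 0 < β) (hh : 0 < h) (N : ℕ) :
    (finPressure n N β h - finPressure n N β 0) / h ≤ mdens n β h N := by
  have hg := logZ_grad n (Jc (box N)) (Jc_diag _) β h 0
  have hc := box_card_pos N
  rw [finPressure_eq, finPressure_eq, div_le_iff₀ hh]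
  unfold mdens FZ
  have hbc : 0 < β * ((box N).card : ℝ) := mul_pos hβ hc
  have e1 : 1 / (β * ((box N).card : ℝ)) * logZ n (Jc (box N)) β h -
      1 / (β * ((box N).card : ℝ)) * logZ n (Jc (box N)) β 0 =
      (logZ n (Jc (box N)) β h - logZ n (Jc (box N)) β 0) / (β * ((box N).card : ℝ)) := by
    field_simp
  rw [e1, div_le_iff₀ hbc]
  have e2 : totMag n (Jc (box N)) β h / ((box N).card : ℝ) * h * (β * ((box N).card : ℝ)) =
      β * h * totMag n (Jc (box N)) β h := by
    field_simp
  rw [e2]
  linarith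

end Vale.Agent.P361
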