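import Mathlib

/-!
Peierls-Bogoliubov inequality for real symmetric matrices, and the exponential of a
Kronecker sum.
-/

set_option linter.unusedSectionVars false

namespace Vale.Agent.P361

open Matrix Finset

section
variable {ι : Type*} [Fintype ι] [DecidableEq ι]

lemma symm_diag (H : Matrix ι ι ℝ) (hH : Hᵀ = H) :
    ∃ (U : Matrix ι ι ℝ) (E : ι → ℝ), U * Uᵀ = 1 ∧ Uᵀ * U = 1 ∧ H = U * diagonal E * Uᵀ ∧
      NormedSpace.exp H = U * diagonal (fun i => Real.exp (E i)) * Uᵀ := by
  have hH' : H.IsHermitian := by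
    rw [Matrix.IsHermitian, Matrix.conjTranspose_eq_transpose_of_trivial]; exact hH
  set U : Matrix ι ι ℝ := (hH'.eigenvectorUnitary : Matrix ι ι ℝ) with hU
  set E : ι → ℝ := hH'.eigenvalues with hE
  have hUU : U * Uᵀ = 1 := by
    have := Unitary.mul_star_self_of_mem hH'.eigenvectorUnitary.2
    rwa [Matrix.star_eq_conjTranspose, Matrix.conjTranspose_eq_transpose_of_trivial] at this
  have hUU' : Uᵀ * U = 1 := by
    have := Unitary.star_mul_self_of_mem hH'.eigenvectorUnitary.2
    rwa [Matrix.star_eq_conjTranspose, Matrix.conjTranspose_eq_transpose_of_trivial] at this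
  have hspec : H = U * diagonal E * Uᵀ := by
    have h := hH'.spectral_theorem
    rw [Unitary.conjStarAlgAut_apply] at h
    rw [Matrix.star_eq_conjTranspose, Matrix.conjTranspose_eq_transpose_of_trivial] at h
    exact h
  refine ⟨U, E, hUU, hUU', hspec, ?_⟩
  have hinv : U⁻¹ = Uᵀ := Matrix.inv_eq_right_inv hUU
  have hUunit : IsUnit U := ⟨⟨U, Uᵀ, hUU, hUU'⟩, rfl⟩
  have h1 : H = U * diagonal E * U⁻¹ := by rw [hinv]; exact hspec
  rw [h1, Matrix.exp_conj U _ hUunit, Matrix.exp_diagonal, hinv]
  congr 2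
  congr 1
  ext i
  rw [Pi.coe_exp, Real.exp_eq_exp_ℝ]

/-- Tangent-line form of Jensen for `exp`. -/
lemma jensen_exp (w b : ι → ℝ) (hw : ∀ i, 0 ≤ w i) (c : ℝ)
    (hc : ∑ i, w i * b i = c * ∑ i, w i) :
    Real.exp c * ∑ i, w i ≤ ∑ i, w i * Real.exp (b i) := by
  have h : ∀ i, w i * (Real.exp c * (1 + (b i - c))) ≤ w i * Real.exp (b i) := by
    intro i
    apply mul_le_mul_of_nonneg_left _ (hw i)
    have := Real.add_one_le_exp (b i - c)
    calc Real.exp c * (1 + (b i - c)) ≤ Real.exp c * Real.exp (b i - c) := by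
          apply mul_le_mul_of_nonneg_left _ (Real.exp_pos _).le
          linarith
      _ = Real.exp (b i) := by rw [← Real.exp_add]; congr 1; ring
  calc Real.exp c * ∑ i, w i = ∑ i, w i * (Real.exp c * (1 + (b i - c))) := by
        have : ∀ i, w i * (Real.exp c * (1 + (b i - c))) =
            Real.exp c * (w i + w i * b i - c * w i) := by intro i; ring
        simp only [this]
        rw [← Finset.mul_sum, Finset.sum_sub_distrib, Finset.sum_add_distrib, hc,
          ← Finset.mul_sum]
        ring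
    _ ≤ _ := Finset.sum_le_sum fun i _ => h i

lemma peierls (X : Matrix ι ι ℝ) (hX : Xᵀ = X) (i : ι) :
    Real.exp (X i i) ≤ (NormedSpace.exp X) i i := by
  obtain ⟨V, L, hVV, -, hspec, hexp⟩ := symm_diag X hX
  have h1 : (NormedSpace.exp X) i i = ∑ j, V i j ^ 2 * Real.exp (L j) := by
    rw [hexp, Matrix.mul_apply]
    apply Finset.sum_congr rfl
    intro j _
    rw [Matrix.mul_diagonal, Matrix.transpose_apply]; ring
  have h2 : X i i = ∑ j, V i j ^ 2 * L j := by
    have : X i i = (V * diagonal L * Vᵀ) i i := by rw [← hspec]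
    rw [this, Matrix.mul_apply]
    apply Finset.sum_congr rfl
    intro j _
    rw [Matrix.mul_diagonal, Matrix.transpose_apply]; ring
  have h3 : ∑ j, V i j ^ 2 = 1 := by
    have : (V * Vᵀ) i i = 1 := by rw [hVV, Matrix.one_apply_eq]
    rw [Matrix.mul_apply] at this
    rw [← this]
    apply Finset.sum_congr rfl
    intro j _
    rw [Matrix.transpose_apply]; ring
  have h4 := jensen_exp (fun j => V i j ^ 2) L (fun j => sq_nonneg _) (X i i)
    (by rw [h3, mul_one, ← h2])
  rw [h3, mul_one] at h4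
  rw [h1]; exact h4

lemma conj_exp (U X : Matrix ι ι ℝ) (h1 : U * Uᵀ = 1) (h2 : Uᵀ * U = 1) :
    NormedSpace.exp (Uᵀ * X * U) = Uᵀ * NormedSpace.exp X * U := by
  have hinv : (Uᵀ)⁻¹ = U := Matrix.inv_eq_right_inv h2
  have hUunit : IsUnit (Uᵀ) := ⟨⟨Uᵀ, U, h2, h1⟩, rfl⟩
  have := Matrix.exp_conj Uᵀ X hUunit
  rw [hinv] at this
  exact this

/-- Peierls-Bogoliubov inequality. -/
theorem peierls_bogoliubov [Nonempty ι] (A B : Matrix ι ι ℝ) (hA : Aᵀ = A) (hB : Bᵀ = B) :
    Real.log (trace (NormedSpace.exp A)) +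
      trace (NormedSpace.exp A * B) / trace (NormedSpace.exp A) ≤
      Real.log (trace (NormedSpace.exp (A + B))) := by
  obtain ⟨U, D, hUU, hUU', hspec, hexp⟩ := symm_diag A hA
  set B' := Uᵀ * B * U with hB'
  have hX : Uᵀ * (A + B) * U = diagonal D + B' := by
    rw [mul_add, add_mul, hB']
    congr 1
    rw [hspec]
    calc Uᵀ * (U * diagonal D * Uᵀ) * U = (Uᵀ * U) * diagonal D * (Uᵀ * U) := by
          simp only [Matrix.mul_assoc]
      _ = diagonal D := by rw [hUU', one_mul, mul_one]
  have hXT : (diagonal D + B')ᵀ = diagonal D + B' := by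
    rw [Matrix.transpose_add, Matrix.diagonal_transpose, hB']
    simp only [Matrix.transpose_mul, Matrix.transpose_transpose, hB, Matrix.mul_assoc]
  have t1 : trace (NormedSpace.exp (A + B)) = trace (NormedSpace.exp (diagonal D + B')) := by
    rw [← hX, conj_exp U _ hUU hUU', Matrix.trace_mul_comm, ← Matrix.mul_assoc, hUU, one_mul]
  have t2 : ∑ i, Real.exp (D i) * Real.exp (B' i i) ≤ trace (NormedSpace.exp (A + B)) := by
    rw [t1, Matrix.trace]
    apply Finset.sum_le_sum
    intro i _
    have := peierls (diagonal D + B') hXT i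
    rw [Matrix.add_apply, Matrix.diagonal_apply_eq, Real.exp_add] at this
    exact this
  have t3 : trace (NormedSpace.exp A) = ∑ i, Real.exp (D i) := by
    rw [hexp, Matrix.trace_mul_comm, ← Matrix.mul_assoc, hUU', one_mul, Matrix.trace_diagonal]
  have t4 : trace (NormedSpace.exp A * B) = ∑ i, Real.exp (D i) * B' i i := by
    rw [hexp]
    have : trace (U * diagonal (fun i => Real.exp (D i)) * Uᵀ * B) =
        trace (diagonal (fun i => Real.exp (D i)) * B') := by
      calc trace (U * diagonal (fun i => Real.exp (D i)) * Uᵀ * B)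
          = trace (U * (diagonal (fun i => Real.exp (D i)) * Uᵀ * B)) := by
            simp only [Matrix.mul_assoc]
        _ = trace ((diagonal (fun i => Real.exp (D i)) * Uᵀ * B) * U) :=
            Matrix.trace_mul_comm _ _
        _ = _ := by rw [hB']; simp only [Matrix.mul_assoc]
    rw [this, Matrix.trace]
    apply Finset.sum_congr rfl
    intro i _
    rw [Matrix.diag_apply, Matrix.diagonal_mul]
  have hpos : 0 < ∑ i, Real.exp (D i) :=
    Finset.sum_pos (fun i _ => Real.exp_pos _) Finset.univ_nonempty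
  set c := (∑ i, Real.exp (D i) * B' i i) / ∑ i, Real.exp (D i) with hc
  have t5 := jensen_exp (fun i => Real.exp (D i)) (fun i => B' i i) (fun i => (Real.exp_pos _).le)
    c (by rw [hc]; field_simp)
  have t6 : Real.exp c * ∑ i, Real.exp (D i) ≤ trace (NormedSpace.exp (A + B)) := le_trans t5 t2
  rw [t3, t4]
  have t7 := Real.log_le_log (by positivity) t6
  rw [Real.log_mul (Real.exp_pos _).ne' hpos.ne', Real.log_exp] at t7
  linarith

end

section mapexp
variable {ι κ 𝕜 : Type*} [Fintype ι] [DecidableEq ι] [Fintype κ] [DecidableEq κ]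

set_option backward.isDefEq.respectTransparency false in
lemma map_exp_matrix [NormedRing 𝕜] [CompleteSpace 𝕜] [NormedAlgebra ℚ 𝕜]
    (f : Matrix ι ι ℝ →+* Matrix κ κ 𝕜) (hf : Continuous f)
    (A : Matrix ι ι ℝ) : f (NormedSpace.exp A) = NormedSpace.exp (f A) :=
  open scoped Matrix.Norms.Operator in NormedSpace.map_exp f hf A

end mapexp

section kron
variable {ι κ : Type*} [Fintype ι] [DecidableEq ι] [Fintype κ] [DecidableEq κ]

/-- `A ↦ A ⊗ 1` as a ring homomorphism. -/
def kronLeft (κ : Type*) [Fintype κ] [DecidableEq κ] :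
    Matrix ι ι ℝ →+* Matrix (ι × κ) (ι × κ) ℝ where
  toFun A := Matrix.kroneckerMap (· * ·) A (1 : Matrix κ κ ℝ)
  map_one' := by exact Matrix.one_kronecker_one
  map_mul' A B := by
    have := Matrix.mul_kronecker_mul A B (1 : Matrix κ κ ℝ) (1 : Matrix κ κ ℝ)
    rw [one_mul] at this
    exact this
  map_zero' := by exact Matrix.zero_kronecker _
  map_add' A B := by exact Matrix.add_kronecker _ _ _

/-- `B ↦ 1 ⊗ B` as a ring homomorphism. -/
def kronRight (ι : Type*) [Fintype ι] [DecidableEq ι] :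
    Matrix κ κ ℝ →+* Matrix (ι × κ) (ι × κ) ℝ where
  toFun B := Matrix.kroneckerMap (· * ·) (1 : Matrix ι ι ℝ) B
  map_one' := by exact Matrix.one_kronecker_one
  map_mul' A B := by
    have := Matrix.mul_kronecker_mul (1 : Matrix ι ι ℝ) (1 : Matrix ι ι ℝ) A B
    rw [one_mul] at this
    exact this
  map_zero' := by exact Matrix.kronecker_zero _
  map_add' A B := by exact Matrix.kronecker_add _ _ _

lemma kronLeft_apply (A : Matrix ι ι ℝ) (p q : ι × κ) :
    kronLeft κ A p q = A p.1 q.1 * (1 : Matrix κ κ ℝ) p.2 q.2 := rfl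

lemma kronRight_apply (B : Matrix κ κ ℝ) (p q : ι × κ) :
    kronRight ι B p q = (1 : Matrix ι ι ℝ) p.1 q.1 * B p.2 q.2 := rfl

lemma kronLeft_continuous : Continuous (kronLeft κ : Matrix ι ι ℝ →+* _) := by
  apply continuous_matrix
  intro p q
  simp only [kronLeft_apply]
  exact ((continuous_id.matrix_elem p.1 q.1)).mul continuous_const

lemma kronRight_continuous : Continuous (kronRight ι : Matrix κ κ ℝ →+* _) := by
  apply continuous_matrix
  intro p q
  simp only [kronRight_apply]
  exact continuous_const.mul ((continuous_id.matrix_elem p.2 q.2))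

lemma kron_mul (A : Matrix ι ι ℝ) (B : Matrix κ κ ℝ) :
    kronLeft κ A * kronRight ι B = Matrix.kroneckerMap (· * ·) A B := by
  have := Matrix.mul_kronecker_mul A (1 : Matrix ι ι ℝ) (1 : Matrix κ κ ℝ) B
  rw [one_mul, mul_one] at this
  exact this.symm

lemma kron_mul' (A : Matrix ι ι ℝ) (B : Matrix κ κ ℝ) :
    kronRight ι B * kronLeft κ A = Matrix.kroneckerMap (· * ·) A B := by
  have := Matrix.mul_kronecker_mul (1 : Matrix ι ι ℝ) A B (1 : Matrix κ κ ℝ)
  rw [one_mul, mul_one] at this
  exact this.symm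

lemma exp_kron_sum (A : Matrix ι ι ℝ) (B : Matrix κ κ ℝ) :
    trace (NormedSpace.exp (kronLeft κ A + kronRight ι B)) =
      trace (NormedSpace.exp A) * trace (NormedSpace.exp B) := by
  have hc : Commute (kronLeft κ A) (kronRight ι B) := by
    rw [Commute, SemiconjBy, kron_mul, kron_mul']
  rw [Matrix.exp_add_of_commute _ _ hc]
  have h1 : NormedSpace.exp (kronLeft κ A) = kronLeft κ (NormedSpace.exp A) :=
    (map_exp_matrix (kronLeft κ) kronLeft_continuous A).symm
  have h2 : NormedSpace.exp (kronRight ι B) = kronRight ι (NormedSpace.exp B) :=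
    (map_exp_matrix (kronRight ι) kronRight_continuous B).symm
  rw [h1, h2, kron_mul, Matrix.trace_kronecker]

end kron

end Vale.Agent.P361
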