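import Mathlib

/-!
Existence of a volume limit from approximate additivity in each side length.
-/

namespace Vale.Agent.P361

open Filter Topology

lemma approx_mul (g : ℕ → ℝ) (E : ℝ) (h : ∀ a a', |g (a + a') - g a - g a'| ≤ E) (q a : ℕ) :
    |g (q * a) - q * g a| ≤ (q + 1) * E := by
  induction q with
  | zero =>
    have := h 0 0
    simp only [add_zero, sub_self, zero_sub, abs_neg] at this
    simpa using this
  | succ q ih =>
    have h1 := h (q * a) a
    have e : (q + 1) * a = q * a + a := by ring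
    rw [e]
    have : g (q * a + a) - ((q + 1 : ℕ) : ℝ) * g a =
        (g (q * a + a) - g (q * a) - g a) + (g (q * a) - q * g a) := by push_cast; ring
    rw [this]
    calc _ ≤ |g (q * a + a) - g (q * a) - g a| + |g (q * a) - q * g a| := abs_add_le _ _
      _ ≤ E + (q + 1) * E := add_le_add h1 ih
      _ = _ := by push_cast; ring

variable (f : ℕ → ℕ → ℕ → ℝ) (C : ℝ)

lemma f_bound (hC : 0 ≤ C)
    (h1 : ∀ a a' b c, |f (a + a') b c - f a b c - f a' b c| ≤ C * (b * c))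
    (h2 : ∀ a b b' c, |f a (b + b') c - f a b c - f a b' c| ≤ C * (a * c))
    (h3 : ∀ a b c c', |f a b (c + c') - f a b c - f a b c'| ≤ C * (a * b))
    (a b c : ℕ) : |f a b c| ≤ (|f 1 1 1| + 3 * C) * ((a + 1) * (b + 1) * (c + 1)) := by
  have k3 : |f 1 1 c| ≤ (c + 1) * (|f 1 1 1| + C) := by
    have := approx_mul (fun c => f 1 1 c) (C * (((1 : ℕ) : ℝ) * ((1 : ℕ) : ℝ))) (h3 1 1) c 1
    simp only [mul_one, Nat.cast_one] at this
    have h4 : |f 1 1 c| ≤ |f 1 1 c - c * f 1 1 1| + |(c : ℝ) * f 1 1 1| := by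
      have := abs_add_le (f 1 1 c - c * f 1 1 1) ((c : ℝ) * f 1 1 1)
      simpa using this
    rw [abs_mul, abs_of_nonneg (Nat.cast_nonneg c : (0 : ℝ) ≤ c)] at h4
    have : 0 ≤ |f 1 1 1| := abs_nonneg _
    nlinarith
  have k2 : |f 1 b c| ≤ (b + 1) * (c + 1) * (|f 1 1 1| + 2 * C) := by
    have := approx_mul (fun b => f 1 b c) (C * (((1 : ℕ) : ℝ) * c)) (fun b b' => h2 1 b b' c) b 1
    simp only [mul_one, Nat.cast_one, one_mul] at this
    have h4 : |f 1 b c| ≤ |f 1 b c - b * f 1 1 c| + |(b : ℝ) * f 1 1 c| := by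
      have := abs_add_le (f 1 b c - b * f 1 1 c) ((b : ℝ) * f 1 1 c)
      simpa using this
    rw [abs_mul, abs_of_nonneg (Nat.cast_nonneg b : (0 : ℝ) ≤ b)] at h4
    have hb : (0 : ℝ) ≤ b := Nat.cast_nonneg b
    have hc : (0 : ℝ) ≤ c := Nat.cast_nonneg c
    have h5 := mul_le_mul_of_nonneg_left k3 hb
    have h6 : 0 ≤ |f 1 1 1| := abs_nonneg _
    have h7 : 0 ≤ (c : ℝ) * |f 1 1 1| := by positivity
    have h8 : (b + 1 : ℝ) * (C * c) ≤ (b + 1) * (C * (c + 1)) := by
      apply mul_le_mul_of_nonneg_left _ (by positivity)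
      nlinarith
    nlinarith
  have := approx_mul (fun a => f a b c) (C * (b * c)) (fun a a' => h1 a a' b c) a 1
  simp only [mul_one] at this
  have h4 : |f a b c| ≤ |f a b c - a * f 1 b c| + |(a : ℝ) * f 1 b c| := by
    have := abs_add_le (f a b c - a * f 1 b c) ((a : ℝ) * f 1 b c)
    simpa using this
  rw [abs_mul, abs_of_nonneg (Nat.cast_nonneg a : (0 : ℝ) ≤ a)] at h4
  have ha : (0 : ℝ) ≤ a := Nat.cast_nonneg a
  have hb : (0 : ℝ) ≤ b := Nat.cast_nonneg b
  have hc : (0 : ℝ) ≤ c := Nat.cast_nonneg c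
  have h5 := mul_le_mul_of_nonneg_left k2 ha
  have h6 : 0 ≤ |f 1 1 1| := abs_nonneg _
  have h7 : 0 ≤ ((b : ℝ) + 1) * (c + 1) * |f 1 1 1| := by positivity
  have h8 : (a + 1 : ℝ) * (C * (b * c)) ≤ (a + 1) * (C * ((b + 1) * (c + 1))) := by
    apply mul_le_mul_of_nonneg_left _ (by positivity)
    apply mul_le_mul_of_nonneg_left _ hC
    nlinarith
  have h9 : 0 ≤ ((b : ℝ) + 1) * (c + 1) * C := by positivity
  nlinarith

lemma g_compare (hC : 0 ≤ C)
    (h1 : ∀ a a' b c, |f (a + a') b c - f a b c - f a' b c| ≤ C * (b * c))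
    (h2 : ∀ a b b' c, |f a (b + b') c - f a b c - f a b' c| ≤ C * (a * c))
    (h3 : ∀ a b c c', |f a b (c + c') - f a b c - f a b c'| ≤ C * (a * b))
    (K : ℝ) (hK : K = |f 1 1 1| + 3 * C) (M q r : ℕ) (hM : 1 ≤ M) (hq : 1 ≤ q) (hr : r < M) :
    |f (q * M + r) (q * M + r) (q * M + r) - (q : ℝ) ^ 3 * f M M M| ≤
      3 * (C + 4 * K * M) * ((q * M + r : ℕ) : ℝ) ^ 2 + 6 * C * ((q : ℝ) ^ 3 * M ^ 2) := by
  set L := q * M + r with hL
  have hLpos : 1 ≤ L := by nlinarith
  have hK0 : 0 ≤ K := by rw [hK]; have := abs_nonneg (f 1 1 1); positivity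
  have hfb := f_bound f C hC h1 h2 h3
  rw [← hK] at hfb
  have hMr : (1 : ℝ) ≤ M := by exact_mod_cast hM
  have hqr : (1 : ℝ) ≤ q := by exact_mod_cast hq
  have hLr : (1 : ℝ) ≤ L := by exact_mod_cast hLpos
  have hrM : (r : ℝ) + 1 ≤ M := by exact_mod_cast hr
  have hqM : ((q * M : ℕ) : ℝ) ≤ L := by exact_mod_cast (by rw [hL]; omega : q * M ≤ L)
  have hqM0 : (0 : ℝ) ≤ ((q * M : ℕ) : ℝ) := Nat.cast_nonneg _
  have hbig : ((L : ℝ) + 1) * (L + 1) ≤ 4 * (L : ℝ) ^ 2 := by nlinarith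
  -- first coordinate
  have s1 : |f L L L - f (q * M) L L| ≤ (C + 4 * K * M) * (L : ℝ) ^ 2 := by
    have a1 := h1 (q * M) r L L
    have a2 := hfb r L L
    have a3 : |f L L L - f (q * M) L L| ≤ |f (q * M + r) L L - f (q * M) L L - f r L L| +
        |f r L L| := by
      have := abs_add_le (f (q * M + r) L L - f (q * M) L L - f r L L) (f r L L)
      simp only [sub_add_cancel] at this
      exact this
    have a4 : K * ((r + 1) * (L + 1) * (L + 1)) ≤ K * (M * (4 * (L : ℝ) ^ 2)) := by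
      apply mul_le_mul_of_nonneg_left _ hK0
      rw [mul_assoc]
      exact mul_le_mul hrM hbig (by positivity) (by positivity)
    nlinarith
  have s2 : |f (q * M) L L - f (q * M) (q * M) L| ≤ (C + 4 * K * M) * (L : ℝ) ^ 2 := by
    have a1 := h2 (q * M) (q * M) r L
    have a2 := hfb (q * M) r L
    have a3 : |f (q * M) L L - f (q * M) (q * M) L| ≤
        |f (q * M) (q * M + r) L - f (q * M) (q * M) L - f (q * M) r L| + |f (q * M) r L| := by
      have := abs_add_le (f (q * M) (q * M + r) L - f (q * M) (q * M) L - f (q * M) r L)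
        (f (q * M) r L)
      simp only [sub_add_cancel] at this
      exact this
    have a4 : K * ((((q * M : ℕ) : ℝ) + 1) * (r + 1) * (L + 1)) ≤ K * (M * (4 * (L : ℝ) ^ 2)) := by
      apply mul_le_mul_of_nonneg_left _ hK0
      calc (((q * M : ℕ) : ℝ) + 1) * (r + 1) * (L + 1) ≤ (L + 1) * M * (L + 1) := by gcongr
        _ = M * ((L + 1) * (L + 1)) := by ring
        _ ≤ _ := mul_le_mul_of_nonneg_left hbig (by positivity)
    have a5 : C * (((q * M : ℕ) : ℝ) * L) ≤ C * ((L : ℝ) ^ 2) := by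
      apply mul_le_mul_of_nonneg_left _ hC
      nlinarith
    linarith
  have s3 : |f (q * M) (q * M) L - f (q * M) (q * M) (q * M)| ≤
      (C + 4 * K * M) * (L : ℝ) ^ 2 := by
    have a1 := h3 (q * M) (q * M) (q * M) r
    have a2 := hfb (q * M) (q * M) r
    have a3 : |f (q * M) (q * M) L - f (q * M) (q * M) (q * M)| ≤
        |f (q * M) (q * M) (q * M + r) - f (q * M) (q * M) (q * M) - f (q * M) (q * M) r| +
        |f (q * M) (q * M) r| := by
      have := abs_add_le (f (q * M) (q * M) (q * M + r) - f (q * M) (q * M) (q * M) -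
        f (q * M) (q * M) r) (f (q * M) (q * M) r)
      simp only [sub_add_cancel] at this
      exact this
    have a4 : K * ((((q * M : ℕ) : ℝ) + 1) * (((q * M : ℕ) : ℝ) + 1) * (r + 1)) ≤
        K * (M * (4 * (L : ℝ) ^ 2)) := by
      apply mul_le_mul_of_nonneg_left _ hK0
      calc (((q * M : ℕ) : ℝ) + 1) * (((q * M : ℕ) : ℝ) + 1) * (r + 1) ≤
            (L + 1) * (L + 1) * M := by gcongr
        _ = M * ((L + 1) * (L + 1)) := by ring
        _ ≤ _ := mul_le_mul_of_nonneg_left hbig (by positivity)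
    have a5 : C * (((q * M : ℕ) : ℝ) * ((q * M : ℕ) : ℝ)) ≤ C * ((L : ℝ) ^ 2) := by
      apply mul_le_mul_of_nonneg_left _ hC
      nlinarith
    linarith
  have hq1 : (q : ℝ) + 1 ≤ 2 * q := by linarith
  have t1 : |f (q * M) (q * M) (q * M) - q * f M (q * M) (q * M)| ≤
      2 * C * ((q : ℝ) ^ 3 * M ^ 2) := by
    have := approx_mul (fun a => f a (q * M) (q * M)) (C * (((q * M : ℕ) : ℝ) * ((q * M : ℕ) : ℝ)))
      (fun a a' => h1 a a' (q * M) (q * M)) q M
    calc _ ≤ _ := this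
      _ ≤ (2 * q) * (C * (((q * M : ℕ) : ℝ) * ((q * M : ℕ) : ℝ))) := by
          apply mul_le_mul_of_nonneg_right hq1
          positivity
      _ = _ := by push_cast; ring
  have t2 : |f M (q * M) (q * M) - q * f M M (q * M)| ≤ 2 * C * ((q : ℝ) ^ 2 * M ^ 2) := by
    have := approx_mul (fun b => f M b (q * M)) (C * ((M : ℝ) * ((q * M : ℕ) : ℝ)))
      (fun b b' => h2 M b b' (q * M)) q M
    calc _ ≤ _ := this
      _ ≤ (2 * q) * (C * ((M : ℝ) * ((q * M : ℕ) : ℝ))) := by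
          apply mul_le_mul_of_nonneg_right hq1
          positivity
      _ = _ := by push_cast; ring
  have t3 : |f M M (q * M) - q * f M M M| ≤ 2 * C * ((q : ℝ) * M ^ 2) := by
    have := approx_mul (fun c => f M M c) (C * ((M : ℝ) * M))
      (fun c c' => h3 M M c c') q M
    calc _ ≤ _ := this
      _ ≤ (2 * q) * (C * ((M : ℝ) * M)) := by
          apply mul_le_mul_of_nonneg_right hq1
          positivity
      _ = _ := by push_cast; ring
  have t2' : |q * f M (q * M) (q * M) - q ^ 2 * f M M (q * M)| ≤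
      2 * C * ((q : ℝ) ^ 3 * M ^ 2) := by
    have e : q * f M (q * M) (q * M) - q ^ 2 * f M M (q * M) =
        q * (f M (q * M) (q * M) - q * f M M (q * M)) := by ring
    rw [e, abs_mul, abs_of_nonneg (by positivity : (0 : ℝ) ≤ q)]
    calc _ ≤ (q : ℝ) * (2 * C * ((q : ℝ) ^ 2 * M ^ 2)) :=
          mul_le_mul_of_nonneg_left t2 (by positivity)
      _ = _ := by ring
  have t3' : |(q : ℝ) ^ 2 * f M M (q * M) - q ^ 3 * f M M M| ≤
      2 * C * ((q : ℝ) ^ 3 * M ^ 2) := by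
    have e : (q : ℝ) ^ 2 * f M M (q * M) - q ^ 3 * f M M M =
        q ^ 2 * (f M M (q * M) - q * f M M M) := by ring
    rw [e, abs_mul, abs_of_nonneg (by positivity : (0 : ℝ) ≤ (q : ℝ) ^ 2)]
    calc _ ≤ (q : ℝ) ^ 2 * (2 * C * ((q : ℝ) * M ^ 2)) :=
          mul_le_mul_of_nonneg_left t3 (by positivity)
      _ = _ := by ring
  have tot : f L L L - (q : ℝ) ^ 3 * f M M M =
      (f L L L - f (q * M) L L) + (f (q * M) L L - f (q * M) (q * M) L) +
      (f (q * M) (q * M) L - f (q * M) (q * M) (q * M)) +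
      (f (q * M) (q * M) (q * M) - q * f M (q * M) (q * M)) +
      (q * f M (q * M) (q * M) - q ^ 2 * f M M (q * M)) +
      (q ^ 2 * f M M (q * M) - q ^ 3 * f M M M) := by ring
  rw [tot]
  have := abs_add_le (f L L L - f (q * M) L L) (f (q * M) L L - f (q * M) (q * M) L)
  have := abs_add_le ((f L L L - f (q * M) L L) + (f (q * M) L L - f (q * M) (q * M) L))
    (f (q * M) (q * M) L - f (q * M) (q * M) (q * M))
  have := abs_add_le ((f L L L - f (q * M) L L) + (f (q * M) L L - f (q * M) (q * M) L) +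
    (f (q * M) (q * M) L - f (q * M) (q * M) (q * M)))
    (f (q * M) (q * M) (q * M) - q * f M (q * M) (q * M))
  have := abs_add_le ((f L L L - f (q * M) L L) + (f (q * M) L L - f (q * M) (q * M) L) +
    (f (q * M) (q * M) L - f (q * M) (q * M) (q * M)) +
    (f (q * M) (q * M) (q * M) - q * f M (q * M) (q * M)))
    (q * f M (q * M) (q * M) - q ^ 2 * f M M (q * M))
  have := abs_add_le ((f L L L - f (q * M) L L) + (f (q * M) L L - f (q * M) (q * M) L) +
    (f (q * M) (q * M) L - f (q * M) (q * M) (q * M)) +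
    (f (q * M) (q * M) (q * M) - q * f M (q * M) (q * M)) +
    (q * f M (q * M) (q * M) - q ^ 2 * f M M (q * M)))
    (q ^ 2 * f M M (q * M) - q ^ 3 * f M M M)
  linarith

theorem quasi_limit (hC : 0 ≤ C)
    (h1 : ∀ a a' b c, |f (a + a') b c - f a b c - f a' b c| ≤ C * (b * c))
    (h2 : ∀ a b b' c, |f a (b + b') c - f a b c - f a b' c| ≤ C * (a * c))
    (h3 : ∀ a b c c', |f a b (c + c') - f a b c - f a b c'| ≤ C * (a * b)) :
    ∃ p, Tendsto (fun L : ℕ => f L L L / (L : ℝ) ^ 3) atTop (𝓝 p) := by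
  obtain ⟨K, hK⟩ : ∃ K, K = |f 1 1 1| + 3 * C := ⟨_, rfl⟩
  have hK0 : 0 ≤ K := by rw [hK]; have := abs_nonneg (f 1 1 1); positivity
  have hfb := f_bound f C hC h1 h2 h3
  rw [← hK] at hfb
  -- comparison at scale M
  have main : ∀ M : ℕ, 1 ≤ M → ∀ L : ℕ, M ≤ L →
      |f L L L / (L : ℝ) ^ 3 - f M M M / (M : ℝ) ^ 3| ≤
        (3 * C + 36 * K * M) / L + 6 * C / M := by
    intro M hM L hL
    set q := L / M with hq
    set r := L % M with hr
    have hLe : L = q * M + r := by rw [hq, hr, mul_comm]; exact (Nat.div_add_mod L M).symm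
    have hq1 : 1 ≤ q := by rw [hq]; exact Nat.one_le_div_iff (by omega) |>.mpr hL
    have hrM : r < M := Nat.mod_lt _ (by omega)
    have hc := g_compare f C hC h1 h2 h3 K hK M q r hM hq1 hrM
    rw [← hLe] at hc
    have hMr : (1 : ℝ) ≤ M := by exact_mod_cast hM
    have hLpos : (1 : ℝ) ≤ L := by exact_mod_cast le_trans hM hL
    have hL3 : (0 : ℝ) < (L : ℝ) ^ 3 := by positivity
    have hM3 : (0 : ℝ) < (M : ℝ) ^ 3 := by positivity
    have hqM : (q : ℝ) * M ≤ L := by
      have : q * M ≤ L := by omega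
      exact_mod_cast this
    have hqM' : (L : ℝ) ≤ q * M + M := by
      have : L ≤ q * M + M := by omega
      exact_mod_cast this
    have hq0 : (0 : ℝ) ≤ q := Nat.cast_nonneg _
    have e1 : f L L L / (L : ℝ) ^ 3 - f M M M / (M : ℝ) ^ 3 =
        (f L L L - (q : ℝ) ^ 3 * f M M M) / (L : ℝ) ^ 3 +
        f M M M / (M : ℝ) ^ 3 * (((q * M) ^ 3 - (L : ℝ) ^ 3) / (L : ℝ) ^ 3) := by
      field_simp
      ring
    have b1 : |(f L L L - (q : ℝ) ^ 3 * f M M M) / (L : ℝ) ^ 3| ≤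
        (3 * C + 12 * K * M) / L + 6 * C / M := by
      rw [abs_div, abs_of_pos hL3, div_le_iff₀ hL3]
      have : ((3 * C + 12 * K * M) / L + 6 * C / M) * (L : ℝ) ^ 3 =
          (3 * C + 12 * K * M) * (L : ℝ) ^ 2 + 6 * C * ((L : ℝ) ^ 3 / M) := by
        field_simp
      rw [this]
      have h5 : (q : ℝ) ^ 3 * M ^ 2 ≤ (L : ℝ) ^ 3 / M := by
        rw [le_div_iff₀ (by positivity)]
        calc (q : ℝ) ^ 3 * M ^ 2 * M = (q * M) ^ 3 := by ring
          _ ≤ (L : ℝ) ^ 3 := by gcongr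
      have h6 : 6 * C * ((q : ℝ) ^ 3 * M ^ 2) ≤ 6 * C * ((L : ℝ) ^ 3 / M) :=
        mul_le_mul_of_nonneg_left h5 (by positivity)
      nlinarith
    have b2 : |f M M M / (M : ℝ) ^ 3| ≤ 8 * K := by
      rw [abs_div, abs_of_pos hM3, div_le_iff₀ hM3]
      have := hfb M M M
      have h7 : ((M : ℝ) + 1) * (M + 1) * (M + 1) ≤ 8 * (M : ℝ) ^ 3 := by
        calc ((M : ℝ) + 1) * (M + 1) * (M + 1) ≤ (2 * M) * (2 * M) * (2 * M) := by
              gcongr <;> linarith
          _ = _ := by ring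
      have h8 := mul_le_mul_of_nonneg_left h7 hK0
      nlinarith
    have b3 : |((q * M) ^ 3 - (L : ℝ) ^ 3) / (L : ℝ) ^ 3| ≤ 3 * M / L := by
      rw [abs_div, abs_of_pos hL3, div_le_iff₀ hL3]
      have : 3 * M / L * (L : ℝ) ^ 3 = 3 * M * (L : ℝ) ^ 2 := by field_simp
      rw [this, abs_sub_comm, abs_of_nonneg]
      · set t := (q : ℝ) * M with ht
        have ht0 : 0 ≤ t := by positivity
        have e2 : (L : ℝ) ^ 3 - t ^ 3 = (L - t) * ((L : ℝ) ^ 2 + L * t + t ^ 2) := by ring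
        rw [e2]
        have h9 : (L : ℝ) - t ≤ M := by linarith
        have h10 : (L : ℝ) ^ 2 + L * t + t ^ 2 ≤ 3 * (L : ℝ) ^ 2 := by nlinarith
        calc ((L : ℝ) - t) * ((L : ℝ) ^ 2 + L * t + t ^ 2) ≤ M * (3 * (L : ℝ) ^ 2) := by
              apply mul_le_mul h9 h10 (by positivity) (by positivity)
          _ = _ := by ring
      · have : ((q : ℝ) * M) ^ 3 ≤ (L : ℝ) ^ 3 := by gcongr
        linarith
    rw [e1]
    calc _ ≤ |(f L L L - (q : ℝ) ^ 3 * f M M M) / (L : ℝ) ^ 3| +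
        |f M M M / (M : ℝ) ^ 3 * (((q * M) ^ 3 - (L : ℝ) ^ 3) / (L : ℝ) ^ 3)| := abs_add_le _ _
      _ ≤ ((3 * C + 12 * K * M) / L + 6 * C / M) + 8 * K * (3 * M / L) := by
        rw [abs_mul]
        apply add_le_add b1
        apply mul_le_mul b2 b3 (abs_nonneg _) (by positivity)
      _ = _ := by ring
  have hcau : CauchySeq (fun L : ℕ => f L L L / (L : ℝ) ^ 3) := by
    rw [Metric.cauchySeq_iff']
    intro ε hε
    -- choose M
    obtain ⟨M, hM⟩ : ∃ M : ℕ, 6 * C / ε * 4 < M := exists_nat_gt _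
    set M' := M + 1 with hM'
    have hM'pos : (0 : ℝ) < (M' : ℝ) := by rw [hM']; positivity
    have hM6 : 6 * C / M' < ε / 4 := by
      rw [div_lt_iff₀ hM'pos]
      have : 6 * C / ε * 4 < M' := by
        rw [hM']; push_cast; linarith
      have h5 : 6 * C / ε * 4 * ε < M' * ε := mul_lt_mul_of_pos_right this hε
      have h6 : 6 * C / ε * 4 * ε = 24 * C := by field_simp; ring
      rw [h6] at h5
      linarith
    obtain ⟨L0, hL0⟩ : ∃ L0 : ℕ, (3 * C + 36 * K * M') / ε * 4 < L0 := exists_nat_gt _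
    refine ⟨max M' (L0 + 1), fun L hL => ?_⟩
    have key : ∀ L : ℕ, max M' (L0 + 1) ≤ L →
        |f L L L / (L : ℝ) ^ 3 - f M' M' M' / (M' : ℝ) ^ 3| < ε / 2 := by
      intro L hL
      have h7 : M' ≤ L := le_trans (le_max_left _ _) hL
      have h8 : L0 + 1 ≤ L := le_trans (le_max_right _ _) hL
      have hLr : ((L0 : ℝ) + 1) ≤ L := by exact_mod_cast h8
      have hLpos : (0 : ℝ) < L := by
        have : (0 : ℝ) ≤ L0 := Nat.cast_nonneg _
        linarith
      have h9 : (3 * C + 36 * K * M') / L < ε / 4 := by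
        rw [div_lt_iff₀ hLpos]
        have h10 : (3 * C + 36 * K * M') / ε * 4 < L := by linarith
        have h11 := mul_lt_mul_of_pos_right h10 hε
        have h12 : (3 * C + 36 * K * M') / ε * 4 * ε = 4 * (3 * C + 36 * K * M') := by
          field_simp
        rw [h12] at h11
        linarith
      have := main M' (by omega) L h7
      linarith
    have k1 := key L hL
    have k2 := key (max M' (L0 + 1)) le_rfl
    rw [Real.dist_eq]
    have := abs_sub_le (f L L L / (L : ℝ) ^ 3) (f M' M' M' / (M' : ℝ) ^ 3)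
      (f (max M' (L0 + 1)) (max M' (L0 + 1)) (max M' (L0 + 1)) / ((max M' (L0 + 1) : ℕ) : ℝ) ^ 3)
    rw [abs_sub_comm (f M' M' M' / (M' : ℝ) ^ 3)] at this
    linarith
  exact cauchySeq_tendsto_of_complete hcau

end Vale.Agent.P361
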