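import Vale.Agent.P361.Thermo
import Vale.Agent.P361.QuasiLimit

/-!
Volume limit of the log-partition function over boxes of `ℤ^3`.
-/

set_option linter.unusedSectionVars false

namespace Vale.Agent.P361

open Matrix Finset Filter Topology

/-- Nearest-neighbour couplings on a finite region. -/
def Jc (A : Finset (Fin 3 → ℤ)) : A → A → ℝ := fun x y => if nn x y then 1 else 0

lemma nn_irrefl (x : Fin 3 → ℤ) : ¬ nn x x := by simp [nn]

lemma nn_symm {x y : Fin 3 → ℤ} (h : nn x y) : nn y x := by
  unfold nn at *
  rw [← h]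
  apply Finset.sum_congr rfl
  intro i _
  rw [abs_sub_comm]

lemma Jc_diag (A : Finset (Fin 3 → ℤ)) (x : A) : Jc A x x = 0 := by
  simp [Jc, nn_irrefl]

lemma Jc_nonneg (A : Finset (Fin 3 → ℤ)) (x y : A) : 0 ≤ Jc A x y := by
  unfold Jc; split_ifs <;> norm_num

/-- Log-partition function of a finite region. -/
noncomputable def FZ (n : ℕ) (β h : ℝ) (A : Finset (Fin 3 → ℤ)) : ℝ := logZ n (Jc A) β h

lemma FZ_congr (n : ℕ) (β h : ℝ) {A B : Finset (Fin 3 → ℤ)} (e : A ≃ B)
    (he : ∀ x y : A, nn x y ↔ nn (e x) (e y)) : FZ n β h A = FZ n β h B := by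
  unfold FZ
  rw [← logZ_equiv e (Jc B) β h]
  congr 1
  funext x y
  simp only [Jc, he]

/-- Number of ordered cross pairs. -/
def crossN (A B : Finset (Fin 3 → ℤ)) : ℝ := ∑ x ∈ A, ∑ y ∈ B, if nn x y then (1 : ℝ) else 0

lemma FZ_union (n : ℕ) (β h : ℝ) (hβ : 0 ≤ β) {A B : Finset (Fin 3 → ℤ)} (hAB : Disjoint A B) :
    |FZ n β h (A ∪ B) - FZ n β h A - FZ n β h B| ≤ 2 * (β * (n : ℝ) ^ 2) * crossN A B := by
  set e := Equiv.Finset.union A B hAB with he
  have h1 : FZ n β h (A ∪ B) = logZ n (fun x y => Jc (A ∪ B) (e x) (e y)) β h := by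
    unfold FZ
    exact (logZ_equiv e (Jc (A ∪ B)) β h).symm
  have h2 : FZ n β h A + FZ n β h B = logZ n (decJ (Jc A) (Jc B)) β h :=
    (logZ_split (Jc A) (Jc B) (Jc_diag A) (Jc_diag B) β h).symm
  have h3 := logZ_compare n (fun x y => Jc (A ∪ B) (e x) (e y)) (decJ (Jc A) (Jc B))
    (fun x => Jc_diag _ _) (by
      rintro (x | x)
      · exact Jc_diag A x
      · exact Jc_diag B x) β h hβ
  have h4 : FZ n β h (A ∪ B) - FZ n β h A - FZ n β h B =
      logZ n (fun x y => Jc (A ∪ B) (e x) (e y)) β h - logZ n (decJ (Jc A) (Jc B)) β h := by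
    rw [← h1, ← h2]; ring
  rw [h4]
  refine le_trans h3 ?_
  have e1 : ∀ x : A, ((e (Sum.inl x) : (A ∪ B : Finset (Fin 3 → ℤ))) : Fin 3 → ℤ) = x :=
    fun x => rfl
  have e2 : ∀ x : B, ((e (Sum.inr x) : (A ∪ B : Finset (Fin 3 → ℤ))) : Fin 3 → ℤ) = x :=
    fun x => rfl
  have h5 : ∑ x, ∑ y, |Jc (A ∪ B) (e x) (e y) - decJ (Jc A) (Jc B) x y| = 2 * crossN A B := by
    rw [Fintype.sum_sum_type]
    simp only [Fintype.sum_sum_type, decJ_ll, decJ_lr, decJ_rl, decJ_rr, Jc, e1, e2, sub_self, abs_zero,
      Finset.sum_const_zero, zero_add, add_zero, sub_zero]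
    have a1 : ∑ x : A, ∑ y : B, |if nn x y then (1 : ℝ) else 0| = crossN A B := by
      unfold crossN
      rw [← Finset.sum_coe_sort A]
      apply Finset.sum_congr rfl
      intro x _
      rw [← Finset.sum_coe_sort B]
      apply Finset.sum_congr rfl
      intro y _
      split_ifs <;> simp
    have a2 : ∑ x : B, ∑ y : A, |if nn x y then (1 : ℝ) else 0| = crossN A B := by
      rw [← a1, Finset.sum_comm]
      apply Finset.sum_congr rfl
      intro x _
      apply Finset.sum_congr rfl
      intro y _
      have : nn (y : Fin 3 → ℤ) x ↔ nn (x : Fin 3 → ℤ) y := ⟨nn_symm, nn_symm⟩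
      simp only [this]
    rw [a1, a2]; ring
  rw [h5]
  apply le_of_eq; ring

/-- Boxes with side lengths `L`. -/
noncomputable def bx (L : Fin 3 → ℕ) : Finset (Fin 3 → ℤ) :=
  Fintype.piFinset fun i => Finset.Ico (0 : ℤ) (L i)

lemma mem_bx {L : Fin 3 → ℕ} {x : Fin 3 → ℤ} : x ∈ bx L ↔ ∀ i, 0 ≤ x i ∧ x i < L i := by
  simp [bx, Fintype.mem_piFinset]

lemma card_bx (L : Fin 3 → ℕ) : ((bx L).card : ℝ) = ∏ i, (L i : ℝ) := by
  simp [bx, Fintype.card_piFinset]

lemma nn_facing {x y : Fin 3 → ℤ} (h : nn x y) (i : Fin 3) {a : ℤ} (hx : x i < a) (hy : a ≤ y i) :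
    y i = a ∧ x = Function.update y i (a - 1) := by
  unfold nn at h
  have h1 : ∑ j, |x j - y j| = |x i - y i| + ∑ j ∈ Finset.univ.erase i, |x j - y j| :=
    (Finset.add_sum_erase _ _ (Finset.mem_univ i)).symm
  rw [h1] at h
  have h2 : 0 ≤ ∑ j ∈ Finset.univ.erase i, |x j - y j| :=
    Finset.sum_nonneg fun j _ => abs_nonneg _
  have h3 : 1 ≤ |x i - y i| := by
    rw [abs_sub_comm, abs_of_nonneg (by omega)]; omega
  have h4 : |x i - y i| = 1 := by omega
  have h5 : ∑ j ∈ Finset.univ.erase i, |x j - y j| = 0 := by omega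
  rw [abs_sub_comm, abs_of_nonneg (by omega)] at h4
  refine ⟨by omega, ?_⟩
  funext j
  by_cases hj : j = i
  · subst hj; rw [Function.update_self]; omega
  · rw [Function.update_of_ne hj]
    have h6 := (Finset.sum_eq_zero_iff_of_nonneg (fun j _ => abs_nonneg (x j - y j))).mp h5 j
      (Finset.mem_erase.mpr ⟨hj, Finset.mem_univ _⟩)
    have := abs_eq_zero.mp h6
    omega

lemma FZ_direction (n : ℕ) (β h : ℝ) (hβ : 0 ≤ β) (L : Fin 3 → ℕ) (i : Fin 3) (a a' : ℕ) :
    |FZ n β h (bx (Function.update L i (a + a'))) - FZ n β h (bx (Function.update L i a)) -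
      FZ n β h (bx (Function.update L i a'))| ≤
      2 * (β * (n : ℝ) ^ 2) * ∏ j ∈ Finset.univ.erase i, (L j : ℝ) := by
  set W := bx (Function.update L i (a + a')) with hW
  set A := W.filter (fun x => x i < (a : ℤ)) with hA
  set B := W.filter (fun x => ¬ x i < (a : ℤ)) with hB
  have hWAB : W = A ∪ B := by rw [hA, hB, Finset.filter_union_filter_not_eq]
  have hdisj : Disjoint A B := Finset.disjoint_filter_filter_not _ _ _
  have hAeq : A = bx (Function.update L i a) := by
    ext x
    rw [hA, Finset.mem_filter, hW, mem_bx, mem_bx]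
    constructor
    · rintro ⟨h1, h2⟩ j
      by_cases hj : j = i
      · subst hj; rw [Function.update_self]
        exact ⟨(h1 j).1, h2⟩
      · have := h1 j
        rw [Function.update_of_ne hj] at this ⊢
        exact this
    · intro h1
      refine ⟨fun j => ?_, ?_⟩
      · by_cases hj : j = i
        · subst hj
          have := h1 j
          rw [Function.update_self] at this ⊢
          push_cast
          omega
        · have := h1 j
          rw [Function.update_of_ne hj] at this ⊢
          exact this
      · have := h1 i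
        rw [Function.update_self] at this
        exact this.2
  have hBeq : FZ n β h B = FZ n β h (bx (Function.update L i a')) := by
    symm
    have hmem : ∀ x : Fin 3 → ℤ, x ∈ bx (Function.update L i a') ↔
        Function.update x i (x i + a) ∈ B := by
      intro x
      rw [hB, Finset.mem_filter, hW, mem_bx, mem_bx]
      constructor
      · intro h1
        refine ⟨fun j => ?_, ?_⟩
        · by_cases hj : j = i
          · subst hj
            have := h1 j
            rw [Function.update_self] at this
            rw [Function.update_self, Function.update_self]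
            push_cast
            omega
          · have := h1 j
            rw [Function.update_of_ne hj] at this
            rw [Function.update_of_ne hj, Function.update_of_ne hj]
            exact this
        · have := h1 i
          rw [Function.update_self] at this ⊢
          omega
      · rintro ⟨h1, h2⟩ j
        by_cases hj : j = i
        · subst hj
          have := h1 j
          rw [Function.update_self, Function.update_self] at this
          rw [Function.update_self] at h2 ⊢
          push_cast at this
          omega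
        · have := h1 j
          rw [Function.update_of_ne hj, Function.update_of_ne hj] at this
          rw [Function.update_of_ne hj]
          exact this
    let e : bx (Function.update L i a') ≃ B :=
      { toFun := fun x => ⟨Function.update x.1 i (x.1 i + a), (hmem x.1).mp x.2⟩
        invFun := fun y => ⟨Function.update y.1 i (y.1 i - a), by
          rw [hmem, Function.update_self, Function.update_idem]
          have : y.1 i - (a : ℤ) + a = y.1 i := by ring
          rw [this, Function.update_eq_self]
          exact y.2⟩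
        left_inv := by
          intro x
          apply Subtype.ext
          simp
        right_inv := by
          intro y
          apply Subtype.ext
          simp }
    apply FZ_congr n β h e
    intro x y
    show nn x.1 y.1 ↔ nn (Function.update x.1 i (x.1 i + a)) (Function.update y.1 i (y.1 i + a))
    unfold nn
    have : ∀ j, |Function.update x.1 i (x.1 i + a) j - Function.update y.1 i (y.1 i + a) j| =
        |x.1 j - y.1 j| := by
      intro j
      by_cases hj : j = i
      · subst hj; rw [Function.update_self, Function.update_self]; congr 1; ring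
      · rw [Function.update_of_ne hj, Function.update_of_ne hj]
    simp only [this]
  have hu := FZ_union n β h hβ hdisj
  rw [← hWAB, hBeq, hAeq] at hu
  refine le_trans hu ?_
  apply mul_le_mul_of_nonneg_left _ (by positivity)
  -- count the cross pairs
  unfold crossN
  rw [Finset.sum_comm]
  have c1 : ∀ y ∈ B, ∑ x ∈ bx (Function.update L i a), (if nn x y then (1 : ℝ) else 0) ≤
      if y i = (a : ℤ) then 1 else 0 := by
    intro y hy
    have hy2 : ¬ y i < (a : ℤ) := (Finset.mem_filter.mp hy).2
    have c2 : ∀ x ∈ bx (Function.update L i a), (if nn x y then (1 : ℝ) else 0) ≤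
        if x = Function.update y i ((a : ℤ) - 1) then (if y i = (a : ℤ) then 1 else 0) else 0 := by
      intro x hx
      by_cases hnn : nn x y
      · have hx2 := (mem_bx.mp hx i).2
        rw [Function.update_self] at hx2
        obtain ⟨g1, g2⟩ := nn_facing hnn i hx2 (not_lt.mp hy2)
        rw [if_pos hnn, if_pos g2, if_pos g1]
      · rw [if_neg hnn]
        split_ifs <;> norm_num
    refine le_trans (Finset.sum_le_sum c2) ?_
    rw [Finset.sum_ite_eq']
    split_ifs <;> norm_num
  refine le_trans (Finset.sum_le_sum c1) ?_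
  rw [← Finset.sum_filter, Finset.sum_const, nsmul_eq_mul, mul_one]
  -- the facing layer
  have c3 : (B.filter fun y => y i = (a : ℤ)).card ≤
      (Fintype.piFinset fun j => if j = i then {(a : ℤ)} else Finset.Ico (0 : ℤ) (L j)).card := by
    apply Finset.card_le_card
    intro y hy
    rw [Finset.mem_filter] at hy
    obtain ⟨hyB, hya⟩ := hy
    have hyW := (Finset.mem_filter.mp hyB).1
    rw [hW, mem_bx] at hyW
    rw [Fintype.mem_piFinset]
    intro j
    by_cases hj : j = i
    · subst hj; rw [if_pos rfl]; simpa using hya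
    · rw [if_neg hj, Finset.mem_Ico]
      have := hyW j
      rw [Function.update_of_ne hj] at this
      exact this
  have c4 : (Fintype.piFinset fun j => if j = i then {(a : ℤ)} else Finset.Ico (0 : ℤ) (L j)).card
      = ∏ j ∈ Finset.univ.erase i, L j := by
    rw [Fintype.card_piFinset, ← Finset.mul_prod_erase _ _ (Finset.mem_univ i), if_pos rfl,
      Finset.card_singleton, one_mul]
    apply Finset.prod_congr rfl
    intro j hj
    rw [if_neg (Finset.ne_of_mem_erase hj)]
    simp
  rw [c4] at c3
  exact_mod_cast c3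

lemma FZ_limit (n : ℕ) (β h : ℝ) (hβ : 0 ≤ β) :
    ∃ p, Tendsto (fun L : ℕ => FZ n β h (bx ![L, L, L]) / (L : ℝ) ^ 3) atTop (𝓝 p) := by
  have hC : 0 ≤ 2 * (β * (n : ℝ) ^ 2) := by positivity
  apply quasi_limit (fun a b c => FZ n β h (bx ![a, b, c])) (2 * (β * (n : ℝ) ^ 2)) hC
  · intro a a' b c
    have := FZ_direction n β h hβ ![a, b, c] 0 a a'
    have u : ∀ t, Function.update ![a, b, c] 0 t = ![t, b, c] := by
      intro t; funext j; fin_cases j <;> simp
    rw [u, u, u] at this
    have p : ∏ j ∈ Finset.univ.erase (0 : Fin 3), ((![a, b, c] j : ℕ) : ℝ) = b * c := by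
      have : Finset.univ.erase (0 : Fin 3) = {1, 2} := by decide
      rw [this, Finset.prod_insert (by decide), Finset.prod_singleton]; simp
    rw [p] at this
    exact this
  · intro a b b' c
    have := FZ_direction n β h hβ ![a, b, c] 1 b b'
    have u : ∀ t, Function.update ![a, b, c] 1 t = ![a, t, c] := by
      intro t; funext j; fin_cases j <;> simp
    rw [u, u, u] at this
    have p : ∏ j ∈ Finset.univ.erase (1 : Fin 3), ((![a, b, c] j : ℕ) : ℝ) = a * c := by
      have : Finset.univ.erase (1 : Fin 3) = {0, 2} := by decide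
      rw [this, Finset.prod_insert (by decide), Finset.prod_singleton]; simp
    rw [p] at this
    exact this
  · intro a b c c'
    have := FZ_direction n β h hβ ![a, b, c] 2 c c'
    have u : ∀ t, Function.update ![a, b, c] 2 t = ![a, b, t] := by
      intro t; funext j; fin_cases j <;> simp
    rw [u, u, u] at this
    have p : ∏ j ∈ Finset.univ.erase (2 : Fin 3), ((![a, b, c] j : ℕ) : ℝ) = a * b := by
      have : Finset.univ.erase (2 : Fin 3) = {0, 1} := by decide
      rw [this, Finset.prod_insert (by decide), Finset.prod_singleton]; simp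
    rw [p] at this
    exact this

lemma mem_box {N : ℕ} {x : Fin 3 → ℤ} : x ∈ box N ↔ ∀ i, -(N : ℤ) ≤ x i ∧ x i ≤ N := by
  simp [box, Fintype.mem_piFinset]

lemma card_box (N : ℕ) : ((box N).card : ℝ) = ((2 * N + 1 : ℕ) : ℝ) ^ 3 := by
  unfold box
  rw [Fintype.card_piFinset]
  simp only [Int.card_Icc, Finset.prod_const, Finset.card_univ, Fintype.card_fin]
  have : ((N : ℤ) + 1 - -(N : ℤ)).toNat = 2 * N + 1 := by omega
  rw [this]; push_cast; ring

lemma FZ_box (n : ℕ) (β h : ℝ) (N : ℕ) :
    FZ n β h (box N) = FZ n β h (bx ![2 * N + 1, 2 * N + 1, 2 * N + 1]) := by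
  have hmem : ∀ x : Fin 3 → ℤ, x ∈ box N ↔
      (fun i => x i + N) ∈ bx ![2 * N + 1, 2 * N + 1, 2 * N + 1] := by
    intro x
    rw [mem_box, mem_bx]
    have : ∀ i : Fin 3, (![2 * N + 1, 2 * N + 1, 2 * N + 1] : Fin 3 → ℕ) i = 2 * N + 1 := by
      intro i; fin_cases i <;> rfl
    simp only [this]
    constructor
    · intro h i
      have := h i
      push_cast
      omega
    · intro h i
      have := h i
      push_cast at this
      omega
  let e : box N ≃ bx ![2 * N + 1, 2 * N + 1, 2 * N + 1] :=
    { toFun := fun x => ⟨fun i => x.1 i + N, (hmem x.1).mp x.2⟩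
      invFun := fun y => ⟨fun i => y.1 i - N, by
        rw [hmem]
        have : (fun i => y.1 i - (N : ℤ) + N) = y.1 := by funext i; ring
        rw [this]; exact y.2⟩
      left_inv := by intro x; apply Subtype.ext; funext i; simp
      right_inv := by intro y; apply Subtype.ext; funext i; simp }
  apply FZ_congr n β h e
  intro x y
  show nn x.1 y.1 ↔ nn (fun i => x.1 i + N) (fun i => y.1 i + N)
  unfold nn
  have : ∀ j, |x.1 j + (N : ℤ) - (y.1 j + N)| = |x.1 j - y.1 j| := by
    intro j; congr 1; ring
  simp only [this]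

/-- Existence of the volume limit of the log-partition function density. -/
theorem FZ_box_limit (n : ℕ) (β h : ℝ) (hβ : 0 ≤ β) :
    ∃ p, Tendsto (fun N : ℕ => FZ n β h (box N) / ((box N).card : ℝ)) atTop (𝓝 p) := by
  obtain ⟨p, hp⟩ := FZ_limit n β h hβ
  refine ⟨p, ?_⟩
  have h2 : Tendsto (fun N : ℕ => 2 * N + 1) atTop atTop := by
    apply tendsto_atTop_mono (fun N => (by omega : N ≤ 2 * N + 1)) tendsto_id
  have := hp.comp h2
  refine this.congr ?_
  intro N
  simp only [Function.comp]
  rw [FZ_box, card_box]

end Vale.Agent.P361
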