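import Vale.Agent.P361.FiniteVol2
import Vale.Agent.P361.Peierls

/-!
Invariance, factorization and continuity of the log-partition function in the couplings.
-/

set_option linter.unusedSectionVars false

namespace Vale.Agent.P361

open Matrix Finset

/-- Log-partition function. -/
noncomputable def logZ {Λ : Type*} [Fintype Λ] [DecidableEq Λ] (n : ℕ) (J : Λ → Λ → ℝ)
    (β h : ℝ) : ℝ := Real.log (trace (NormedSpace.exp (-β • fieldR n J h)))

section reindex
variable {ι κ : Type*} [Fintype ι] [DecidableEq ι] [Fintype κ] [DecidableEq κ]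

/-- Reindexing as a ring homomorphism. -/
def reHom (e : ι ≃ κ) : Matrix ι ι ℝ →+* Matrix κ κ ℝ :=
  (Matrix.reindexAlgEquiv ℝ ℝ e : Matrix ι ι ℝ →+* Matrix κ κ ℝ)

lemma reHom_apply (e : ι ≃ κ) (A : Matrix ι ι ℝ) (i j : κ) :
    reHom e A i j = A (e.symm i) (e.symm j) := rfl

lemma reHom_continuous (e : ι ≃ κ) : Continuous (reHom e) := by
  apply continuous_matrix
  intro p q
  simp only [reHom_apply]
  exact continuous_id.matrix_elem _ _

lemma trace_reHom (e : ι ≃ κ) (A : Matrix ι ι ℝ) : trace (reHom e A) = trace A := by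
  simp only [Matrix.trace, Matrix.diag_apply, reHom_apply]
  exact Equiv.sum_comp e.symm fun i => A i i

lemma reHom_smul (e : ι ≃ κ) (c : ℝ) (A : Matrix ι ι ℝ) : reHom e (c • A) = c • reHom e A := rfl

lemma trace_exp_reHom (e : ι ≃ κ) (A : Matrix ι ι ℝ) :
    trace (NormedSpace.exp (reHom e A)) = trace (NormedSpace.exp A) := by
  rw [← map_exp_matrix (reHom e) (reHom_continuous e), trace_reHom]

end reindex

section inv
variable {Λ Λ' : Type*} [Fintype Λ] [DecidableEq Λ] [Fintype Λ'] [DecidableEq Λ']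

lemma reHom_site {n : ℕ} (e : Λ ≃ Λ') (x : Λ) (A : Matrix (Fin (n + 1)) (Fin (n + 1)) ℝ) :
    reHom (Equiv.arrowCongr e (Equiv.refl (Fin (n + 1)))) (site x A) = site (e x) A := by
  ext σ τ
  rw [reHom_apply]
  simp only [site, Matrix.of_apply]
  have h : (∀ y, y ≠ x → ((Equiv.arrowCongr e (Equiv.refl (Fin (n + 1)))).symm σ) y =
      ((Equiv.arrowCongr e (Equiv.refl (Fin (n + 1)))).symm τ) y) ↔
      (∀ y, y ≠ e x → σ y = τ y) := by
    constructor
    · intro h y hy
      have h1 := h (e.symm y) (by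
        intro h2; apply hy; rw [← h2]; simp)
      simpa using h1
    · intro h y hy
      have h1 := h (e y) (by
        intro h2; apply hy; exact e.injective h2)
      simpa using h1
  simp only [h]
  simp

lemma reHom_dot {n : ℕ} (e : Λ ≃ Λ') (x y : Λ) :
    reHom (Equiv.arrowCongr e (Equiv.refl (Fin (n + 1)))) (dotR n x y) =
      dotR n (e x) (e y) := by
  unfold dotR
  rw [map_add, map_mul, reHom_smul, map_add, map_mul, map_mul]
  simp only [reHom_site]

lemma reHom_field {n : ℕ} (e : Λ ≃ Λ') (J : Λ' → Λ' → ℝ) (h : ℝ) :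
    reHom (Equiv.arrowCongr e (Equiv.refl (Fin (n + 1)))) (fieldR n (fun x y => J (e x) (e y)) h) =
      fieldR n J h := by
  unfold fieldR hamR magR
  rw [map_sub, map_neg, reHom_smul, reHom_smul, map_sum, map_sum]
  congr 1
  · congr 2
    rw [← Equiv.sum_comp e]
    apply Finset.sum_congr rfl
    intro x _
    rw [map_sum, ← Equiv.sum_comp e]
    apply Finset.sum_congr rfl
    intro y _
    rw [reHom_smul, reHom_dot]
  · congr 1
    rw [← Equiv.sum_comp e]
    apply Finset.sum_congr rfl
    intro x _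
    rw [reHom_site]

lemma logZ_equiv {n : ℕ} (e : Λ ≃ Λ') (J : Λ' → Λ' → ℝ) (β h : ℝ) :
    logZ n (fun x y => J (e x) (e y)) β h = logZ n J β h := by
  unfold logZ
  rw [← reHom_field e J h, ← reHom_smul, trace_exp_reHom]

/-- Configurations on a disjoint union. -/
def splitE (d : Type*) : (Λ ⊕ Λ' → d) ≃ (Λ → d) × (Λ' → d) := Equiv.sumArrowEquivProdArrow Λ Λ' d

lemma splitE_symm_inl {d : Type*} (p : (Λ → d) × (Λ' → d)) (x : Λ) :
    (splitE d).symm p (Sum.inl x) = p.1 x := rfl

lemma splitE_symm_inr {d : Type*} (p : (Λ → d) × (Λ' → d)) (x : Λ') :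
    (splitE d).symm p (Sum.inr x) = p.2 x := rfl

lemma split_site_inl {n : ℕ} (x : Λ) (A : Matrix (Fin (n + 1)) (Fin (n + 1)) ℝ) :
    reHom (splitE (Λ := Λ) (Λ' := Λ') (Fin (n + 1))) (site (Sum.inl x) A) =
      kronLeft (Λ' → Fin (n + 1)) (site x A) := by
  ext p q
  rw [reHom_apply, kronLeft_apply]
  simp only [site, Matrix.of_apply]
  have h : (∀ y, y ≠ Sum.inl x → (splitE (Fin (n + 1))).symm p y =
      (splitE (Fin (n + 1))).symm q y) ↔ (∀ y, y ≠ x → p.1 y = q.1 y) ∧ p.2 = q.2 := by
    constructor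
    · intro h
      refine ⟨fun y hy => ?_, ?_⟩
      · have := h (Sum.inl y) (by simpa using hy)
        simpa [splitE_symm_inl] using this
      · funext y
        have := h (Sum.inr y) (by simp)
        simpa [splitE_symm_inr] using this
    · rintro ⟨h1, h2⟩ y hy
      rcases y with y | y
      · rw [splitE_symm_inl, splitE_symm_inl]
        exact h1 y (by simpa using hy)
      · rw [splitE_symm_inr, splitE_symm_inr, h2]
  simp only [h, splitE_symm_inl]
  by_cases h1 : ∀ y, y ≠ x → p.1 y = q.1 y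
  · by_cases h2 : p.2 = q.2
    · rw [if_pos ⟨h1, h2⟩, if_pos h1, h2, Matrix.one_apply_eq, mul_one]
    · rw [if_neg (fun h => h2 h.2), Matrix.one_apply_ne h2, mul_zero]
  · rw [if_neg (fun h => h1 h.1), if_neg h1, zero_mul]

lemma split_site_inr {n : ℕ} (x : Λ') (A : Matrix (Fin (n + 1)) (Fin (n + 1)) ℝ) :
    reHom (splitE (Λ := Λ) (Λ' := Λ') (Fin (n + 1))) (site (Sum.inr x) A) =
      kronRight (Λ → Fin (n + 1)) (site x A) := by
  ext p q
  rw [reHom_apply, kronRight_apply]
  simp only [site, Matrix.of_apply]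
  have h : (∀ y, y ≠ Sum.inr x → (splitE (Fin (n + 1))).symm p y =
      (splitE (Fin (n + 1))).symm q y) ↔ p.1 = q.1 ∧ (∀ y, y ≠ x → p.2 y = q.2 y) := by
    constructor
    · intro h
      refine ⟨?_, fun y hy => ?_⟩
      · funext y
        have := h (Sum.inl y) (by simp)
        simpa [splitE_symm_inl] using this
      · have := h (Sum.inr y) (by simpa using hy)
        simpa [splitE_symm_inr] using this
    · rintro ⟨h1, h2⟩ y hy
      rcases y with y | y
      · rw [splitE_symm_inl, splitE_symm_inl, h1]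
      · rw [splitE_symm_inr, splitE_symm_inr]
        exact h2 y (by simpa using hy)
  simp only [h, splitE_symm_inr]
  by_cases h1 : ∀ y, y ≠ x → p.2 y = q.2 y
  · by_cases h2 : p.1 = q.1
    · rw [if_pos ⟨h2, h1⟩, if_pos h1, h2, Matrix.one_apply_eq, one_mul]
    · rw [if_neg (fun h => h2 h.1), Matrix.one_apply_ne h2, zero_mul]
  · rw [if_neg (fun h => h1 h.2), if_neg h1, mul_zero]

/-- Decoupled couplings on a disjoint union. -/
def decJ (J1 : Λ → Λ → ℝ) (J2 : Λ' → Λ' → ℝ) : Λ ⊕ Λ' → Λ ⊕ Λ' → ℝ :=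
  Sum.elim (fun x => Sum.elim (fun y => J1 x y) (fun _ => 0))
    (fun x => Sum.elim (fun _ => 0) (fun y => J2 x y))

lemma decJ_ll (J1 : Λ → Λ → ℝ) (J2 : Λ' → Λ' → ℝ) (x y : Λ) :
    decJ J1 J2 (Sum.inl x) (Sum.inl y) = J1 x y := rfl

lemma decJ_lr (J1 : Λ → Λ → ℝ) (J2 : Λ' → Λ' → ℝ) (x : Λ) (y : Λ') :
    decJ J1 J2 (Sum.inl x) (Sum.inr y) = 0 := rfl

lemma decJ_rl (J1 : Λ → Λ → ℝ) (J2 : Λ' → Λ' → ℝ) (x : Λ') (y : Λ) :
    decJ J1 J2 (Sum.inr x) (Sum.inl y) = 0 := rfl

lemma decJ_rr (J1 : Λ → Λ → ℝ) (J2 : Λ' → Λ' → ℝ) (x y : Λ') :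
    decJ J1 J2 (Sum.inr x) (Sum.inr y) = J2 x y := rfl

lemma kronLeft_smul {ι κ : Type*} [Fintype ι] [DecidableEq ι] [Fintype κ] [DecidableEq κ]
    (c : ℝ) (A : Matrix ι ι ℝ) : kronLeft κ (c • A) = c • kronLeft κ A := by
  ext p q
  simp only [kronLeft_apply, Matrix.smul_apply, smul_eq_mul, mul_assoc]

lemma kronRight_smul {ι κ : Type*} [Fintype ι] [DecidableEq ι] [Fintype κ] [DecidableEq κ]
    (c : ℝ) (A : Matrix κ κ ℝ) : kronRight ι (c • A) = c • kronRight ι A := by
  ext p q
  simp only [kronRight_apply, Matrix.smul_apply, smul_eq_mul]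
  ring

lemma split_field {n : ℕ} (J1 : Λ → Λ → ℝ) (J2 : Λ' → Λ' → ℝ) (h : ℝ) :
    reHom (splitE (Λ := Λ) (Λ' := Λ') (Fin (n + 1))) (fieldR n (decJ J1 J2) h) =
      kronLeft _ (fieldR n J1 h) + kronRight _ (fieldR n J2 h) := by
  have hl : ∀ x y : Λ, reHom (splitE (Λ := Λ) (Λ' := Λ') (Fin (n + 1)))
      (dotR n (Sum.inl x) (Sum.inl y)) = kronLeft _ (dotR n x y) := by
    intro x y
    unfold dotR
    simp only [map_add, map_mul, reHom_smul, kronLeft_smul, split_site_inl]
  have hr : ∀ x y : Λ', reHom (splitE (Λ := Λ) (Λ' := Λ') (Fin (n + 1)))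
      (dotR n (Sum.inr x) (Sum.inr y)) = kronRight _ (dotR n x y) := by
    intro x y
    unfold dotR
    simp only [map_add, map_mul, reHom_smul, kronRight_smul, split_site_inr]
  unfold fieldR hamR magR
  simp only [map_sub, map_neg, reHom_smul, kronLeft_smul, kronRight_smul, map_sum,
    Fintype.sum_sum_type, decJ_ll, decJ_lr, decJ_rl, decJ_rr, map_add, hl, hr, split_site_inl, split_site_inr, zero_smul,
    Finset.sum_const_zero, add_zero, zero_add, smul_add, neg_add]
  abel

lemma logZ_split {n : ℕ} (J1 : Λ → Λ → ℝ) (J2 : Λ' → Λ' → ℝ) (h1 : ∀ x, J1 x x = 0)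
    (h2 : ∀ x, J2 x x = 0) (β h : ℝ) :
    logZ n (decJ J1 J2) β h = logZ n J1 β h + logZ n J2 β h := by
  unfold logZ
  rw [← Real.log_mul, ← exp_kron_sum, ← trace_exp_reHom (splitE (Fin (n + 1))), reHom_smul,
    split_field, smul_add, ← kronLeft_smul, ← kronRight_smul]
  · exact (gibbs_Z_pos _ (fieldR_transpose n J1 h1 h) β).ne'
  · exact (gibbs_Z_pos _ (fieldR_transpose n J2 h2 h) β).ne'

end inv

section compare
variable {Λ : Type*} [Fintype Λ] [DecidableEq Λ]

/-- Two-sided bound on the exchange operator in any Gibbs-type weight. -/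
lemma dot_bounds (n : ℕ) (K : Matrix (Λ → Fin (n + 1)) (Λ → Fin (n + 1)) ℝ) (hT : Kᵀ = K)
    (β : ℝ) {x y : Λ} (hxy : x ≠ y) :
    |trace (NormedSpace.exp (-β • K) * dotR n x y)| ≤
      ((n : ℝ) ^ 2) * trace (NormedSpace.exp (-β • K)) := by
  set c : ℝ := (n : ℝ) / 2 with hc
  set ρ := NormedSpace.exp (-β • K) with hρ
  have hAA : ∀ z : Λ, site z (rA n) * site z (rA n) = c • 1 + site z (rZ n) := by
    intro z; rw [site_mul, rA_mul_rA, site_add, site_smul, site_one]
  have hBB : ∀ z : Λ, site z ((rB n)ᵀ) * site z (rB n) = c • 1 - site z (rZ n) := by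
    intro z; rw [site_mul, rB_mul_rB, site_sub, site_smul, site_one]
  have hAB : ∀ z : Λ, site z (rA n) * site z (rB n) = site z (rP n) := by
    intro z; rw [site_mul, ← rP_eq]
  have hBA : ∀ z : Λ, site z ((rB n)ᵀ) * site z (rA n) = site z (rM n) := by
    intro z; rw [site_mul, ← rM_eq]
  have mulxy : ∀ A B C D : Matrix (Fin (n + 1)) (Fin (n + 1)) ℝ,
      (site y A * site x B) * (site x C * site y D) = (site x B * site x C) * (site y A * site y D) := by
    intro A B C D
    rw [site_comm hxy.symm A B]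
    calc site x B * site y A * (site x C * site y D)
        = site x B * (site y A * site x C) * site y D := by simp only [Matrix.mul_assoc]
      _ = site x B * (site x C * site y A) * site y D := by rw [site_comm hxy.symm A C]
      _ = _ := by simp only [Matrix.mul_assoc]
  have c1 := gibbs_pos K (site x (rA n) * site y (rB n)) hT β
  have c2 := gibbs_pos K (site x (rB n) * site y (rA n)) hT β
  have c3 := gibbs_pos K (site x (rA n) * site y (rB n) - site x (rB n) * site y (rA n)) hT β
  have c4 := gibbs_pos K (site x (rA n) * site y (rB n) + site x (rB n) * site y (rA n)) hT β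
  have c5 := gibbs_pos K (site x (rA n) * site y (rA n)) hT β
  have c6 := gibbs_pos K (site x (rB n) * site y (rB n)) hT β
  have e1 : (site x (rA n) * site y (rB n))ᵀ * (site x (rA n) * site y (rB n)) =
      (c • 1 + site x (rZ n)) * (c • 1 - site y (rZ n)) := by
    rw [Matrix.transpose_mul, site_transpose, site_transpose, rA_transpose, mulxy, hAA, hBB]
  have e2 : (site x (rB n) * site y (rA n))ᵀ * (site x (rB n) * site y (rA n)) =
      (c • 1 - site x (rZ n)) * (c • 1 + site y (rZ n)) := by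
    rw [Matrix.transpose_mul, site_transpose, site_transpose, rA_transpose, mulxy, hAA, hBB]
  have f1 : (site x (rA n) * site y (rB n))ᵀ * (site x (rB n) * site y (rA n)) =
      site x (rP n) * site y (rM n) := by
    rw [Matrix.transpose_mul, site_transpose, site_transpose, rA_transpose, mulxy, hAB, hBA]
  have f2 : (site x (rB n) * site y (rA n))ᵀ * (site x (rA n) * site y (rB n)) =
      site x (rM n) * site y (rP n) := by
    rw [Matrix.transpose_mul, site_transpose, site_transpose, rA_transpose, mulxy, hAB, hBA]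
  have e5 : (site x (rA n) * site y (rA n))ᵀ * (site x (rA n) * site y (rA n)) =
      (c • 1 + site x (rZ n)) * (c • 1 + site y (rZ n)) := by
    rw [Matrix.transpose_mul, site_transpose, site_transpose, rA_transpose, mulxy, hAA, hAA]
  have e6 : (site x (rB n) * site y (rB n))ᵀ * (site x (rB n) * site y (rB n)) =
      (c • 1 - site x (rZ n)) * (c • 1 - site y (rZ n)) := by
    rw [Matrix.transpose_mul, site_transpose, site_transpose, mulxy, hBB, hBB]
  have g3 : (site x (rA n) * site y (rB n) - site x (rB n) * site y (rA n))ᵀ *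
      (site x (rA n) * site y (rB n) - site x (rB n) * site y (rA n)) =
      (c • 1 + site x (rZ n)) * (c • 1 - site y (rZ n)) - site x (rP n) * site y (rM n) -
      (site x (rM n) * site y (rP n) - (c • 1 - site x (rZ n)) * (c • 1 + site y (rZ n))) := by
    rw [Matrix.transpose_sub, sub_mul, mul_sub, mul_sub, e1, e2, f1, f2]
  have g4 : (site x (rA n) * site y (rB n) + site x (rB n) * site y (rA n))ᵀ *
      (site x (rA n) * site y (rB n) + site x (rB n) * site y (rA n)) =
      (c • 1 + site x (rZ n)) * (c • 1 - site y (rZ n)) + site x (rP n) * site y (rM n) +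
      (site x (rM n) * site y (rP n) + (c • 1 - site x (rZ n)) * (c • 1 + site y (rZ n))) := by
    rw [Matrix.transpose_add, add_mul, mul_add, mul_add, e1, e2, f1, f2]
  rw [g3] at c3
  rw [g4] at c4
  rw [e5] at c5
  rw [e6] at c6
  simp only [add_mul, mul_add, sub_mul, mul_sub, smul_mul_assoc, mul_smul_comm, one_mul, mul_one,
    smul_add, smul_sub, smul_smul, Matrix.trace_add, Matrix.trace_sub, Matrix.trace_smul,
    smul_eq_mul] at c3 c4 c5 c6
  unfold dotR
  simp only [mul_add, mul_smul_comm, Matrix.trace_add, Matrix.trace_smul, smul_eq_mul]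
  rw [abs_le]
  have hn : (n : ℝ) ^ 2 = 4 * (c * c) := by rw [hc]; ring
  rw [hn]
  have hZ : 0 ≤ trace ρ := by
    have := gibbs_pos K 1 hT β
    rw [Matrix.transpose_one, one_mul, mul_one] at this
    exact this
  have hcc : 0 ≤ c * c * trace ρ := mul_nonneg (mul_self_nonneg _) hZ
  constructor <;> linarith

/-- Lipschitz dependence of the log-partition function on the couplings. -/
lemma logZ_compare (n : ℕ) (J J' : Λ → Λ → ℝ) (h0 : ∀ x, J x x = 0) (h0' : ∀ x, J' x x = 0)
    (β h : ℝ) (hβ : 0 ≤ β) :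
    |logZ n J β h - logZ n J' β h| ≤ β * (n : ℝ) ^ 2 * (∑ x, ∑ y, |J x y - J' x y|) := by
  have key : ∀ (J J' : Λ → Λ → ℝ) (_ : ∀ x, J x x = 0) (_ : ∀ x, J' x x = 0),
      logZ n J β h - logZ n J' β h ≤ β * (n : ℝ) ^ 2 * (∑ x, ∑ y, |J x y - J' x y|) := by
    intro J J' h0 h0'
    have hT := fieldR_transpose n J h0 h
    have hT' := fieldR_transpose n J' h0' h
    set D := fieldR n J h - fieldR n J' h with hD
    have hDT : Dᵀ = D := by rw [hD, Matrix.transpose_sub, hT, hT']
    have hpb := peierls_bogoliubov (-β • fieldR n J h) (β • D)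
      (by rw [Matrix.transpose_smul, hT]) (by rw [Matrix.transpose_smul, hDT])
    have hsum : -β • fieldR n J h + β • D = -β • fieldR n J' h := by
      rw [hD, smul_sub, neg_smul, neg_smul]; abel
    rw [hsum] at hpb
    have hZ := gibbs_Z_pos _ hT β
    have hDeq : D = -((1 / 2 : ℝ) • ∑ x, ∑ y, (J x y - J' x y) • dotR n x y) := by
      rw [hD]
      unfold fieldR hamR
      simp only [sub_smul, Finset.sum_sub_distrib, smul_sub]
      abel
    have hb : -(trace (NormedSpace.exp (-β • fieldR n J h) * (β • D)) /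
        trace (NormedSpace.exp (-β • fieldR n J h))) ≤
        β * (n : ℝ) ^ 2 * (∑ x, ∑ y, |J x y - J' x y|) := by
      have htr : trace (NormedSpace.exp (-β • fieldR n J h) *
          ∑ x, ∑ y, (J x y - J' x y) • dotR n x y) = ∑ x, ∑ y, (J x y - J' x y) *
          trace (NormedSpace.exp (-β • fieldR n J h) * dotR n x y) := by
        simp only [Finset.mul_sum, Matrix.trace_sum, mul_smul_comm, Matrix.trace_smul, smul_eq_mul]
      rw [neg_le, le_div_iff₀ hZ, hDeq, mul_smul_comm, Matrix.trace_smul, mul_neg,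
        Matrix.trace_neg, mul_smul_comm, Matrix.trace_smul, htr, smul_eq_mul, smul_eq_mul,
        mul_neg, neg_mul, neg_le_neg_iff]
      have h1 : ∑ x, ∑ y, (J x y - J' x y) *
          trace (NormedSpace.exp (-β • fieldR n J h) * dotR n x y) ≤
          ∑ x, ∑ y, |J x y - J' x y| *
            ((n : ℝ) ^ 2 * trace (NormedSpace.exp (-β • fieldR n J h))) := by
        apply Finset.sum_le_sum
        intro x _
        apply Finset.sum_le_sum
        intro y _
        by_cases hxy : x = y
        · subst hxy; rw [h0, h0']; simp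
        · have := dot_bounds n (fieldR n J h) hT β hxy
          calc _ ≤ |(J x y - J' x y) *
              trace (NormedSpace.exp (-β • fieldR n J h) * dotR n x y)| := le_abs_self _
            _ = |J x y - J' x y| *
              |trace (NormedSpace.exp (-β • fieldR n J h) * dotR n x y)| := abs_mul _ _
            _ ≤ _ := mul_le_mul_of_nonneg_left this (abs_nonneg _)
      have h2 : 0 ≤ ∑ x, ∑ y, |J x y - J' x y| *
            ((n : ℝ) ^ 2 * trace (NormedSpace.exp (-β • fieldR n J h))) := by
        apply Finset.sum_nonneg; intro x _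
        apply Finset.sum_nonneg; intro y _
        positivity
      calc β * (1 / 2 * ∑ x, ∑ y, (J x y - J' x y) *
          trace (NormedSpace.exp (-β • fieldR n J h) * dotR n x y))
          ≤ β * (∑ x, ∑ y, |J x y - J' x y| *
            ((n : ℝ) ^ 2 * trace (NormedSpace.exp (-β • fieldR n J h)))) := by
            apply mul_le_mul_of_nonneg_left _ hβ
            linarith
        _ = β * (n : ℝ) ^ 2 * (∑ x, ∑ y, |J x y - J' x y|) *
            trace (NormedSpace.exp (-β • fieldR n J h)) := by
          have : ∑ x, ∑ y, |J x y - J' x y| *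
            ((n : ℝ) ^ 2 * trace (NormedSpace.exp (-β • fieldR n J h))) =
            (∑ x, ∑ y, |J x y - J' x y|) *
            ((n : ℝ) ^ 2 * trace (NormedSpace.exp (-β • fieldR n J h))) := by
            rw [Finset.sum_mul]
            apply Finset.sum_congr rfl; intro x _
            rw [Finset.sum_mul]
          rw [this]; ring
    unfold logZ
    linarith
  rw [abs_le]
  constructor
  · have := key J' J h0' h0
    have e : ∑ x, ∑ y, |J' x y - J x y| = ∑ x, ∑ y, |J x y - J' x y| := by
      apply Finset.sum_congr rfl; intro x _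
      apply Finset.sum_congr rfl; intro y _
      rw [abs_sub_comm]
    rw [e] at this
    linarith
  · exact key J J' h0 h0'

end compare

end Vale.Agent.P361
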